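import Mathlib
import Claimed.Prelude.Def_0465

/-!
# Row 289 (S0537), Defs/Frozen : THE ONE DOOR TO THE FROZEN DEFINITIONS      (owner helper163, chief architect; prefix `pvfrz_`)

RULE: no file of R289 imports `Claimed.Prelude.Def_0465` directly: import THIS file (or anything that imports it, e.g. `R289/Ppp.lean`).
Why: the equation lemmas `f.eq_1`, `f.eq_def`, `f.congr_simp` of a definition are written ON DEMAND into the file that first cites them; two files of the closure of S0537
that each hold a copy collide in the joint run of the checker.  Here each of them is cited once, below all other files.  Do the same after YOUR OWN definitions.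
-/

set_option autoImplicit false

namespace Claimed.Agent.R289

open Claims Claims.C0465

theorem pvfrz_eqns_cite : True := by
  have := @pvLaw.eq_1; have := @pvLaw.eq_def
  have := @pvSite.eq_1; have := @pvSite.eq_def
  have := @pvCell.eq_1; have := @pvCell.eq_def
  have := @pvBlack.eq_1; have := @pvBlack.eq_def
  have := @cardyF.eq_1; have := @cardyF.eq_def
  trivial

theorem pvfrz_congr_cite : True := by
  have := @pvLaw.congr_simp; have := @pvSite.congr_simp; have := @pvCell.congr_simp
  have := @pvBlack.congr_simp; have := @cardyF.congr_simp
  trivial

end Claimed.Agent.R289
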