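import Claimed.Agent.R289.S1.Defs
import Claimed.Agent.R289.Del.Apex
import Claimed.Agent.R289.PppQ

/-!
# Row 289 (S0537), Defs/Bulk : BULK SETTINGS AND THE STATEMENT OF BULK TRANSPORT      (owner helper163, chief architect; prefix `pvb`, `PvBulk`)

TEX: 00-introduction.tex Def. "Bulk setting";  01-fields.tex (fields `U Q V` of a label);  03-plugs.tex Theorem 3.1 (bulk transport).
THE INTERFACE between the transport machine (S1-S7: producer) and Sec. 8 (consumer).      Vocabulary: `PvMap IsSph Simple Tag SameLab` (`Pl/Defs.lean`, 57), `bary qpart side colLaw` (`S1/Defs.lean`, 227/268),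
`DelTri` (`Del/Apex.lean`, 19/253), `cfSites` (`Vor/Basic.lean`, 253), `Conf PvPt pvConf` (`Ppp.lean`, 267), `PvGeoT pvGeo pvCol pvMerge` (`PppQ.lean`, 261).

* `cfCol η p`            colour of the site `p`
* `PvBulk X`             a BULK FAMILY: for every SITE SET `Y` (geometry only: no colours) a triangulated surface `T Y` whose vertices are named by sites of `Y` or by EXTRA vertices `x : X`.
                         Instances: the full plane (`X = Empty`);  the discrete disc + 3 fans + closing triangle of Sec. 8 (`X = Fin 3`).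
* `𝔅.Ok Y K`             `T Y` is a simple sphere / plane which agrees with the Delaunay triangulation of `Y` at all faces with a vertex in `K`;   `𝔅.Adm Y`: finite
* `𝔅.col η ξ`            the colouring: the colours of `η` on the sites, the independent fair coins `ξ : X → Bool` on the extra vertices
* `T.lsum s w d`         `∑_{d' in the label of the tag d} w d'`
* `𝔅.wQ`, `𝔅.wV`         the summands `f(z_t) q_t ω̄^j`, `f(z_t) d_{tj}` (zero on faces with an extra vertex)
* `PvTransport`          Theorem 3.1 with an ARBITRARY scalar `a : ℂ` (Sec. 7 off the route: mirror trick of 211, ruling of 161)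
-/

set_option autoImplicit false

namespace Claimed.Agent.R289

open MeasureTheory ProbabilityTheory Set Filter Topology Claims.C0465
open scoped ContDiff

/-- colour of the point `p` in the configuration `η` (`true` = black) -/
noncomputable def cfCol (η : Conf PvPt) (p : ℂ) : Bool := by
  classical exact decide ((p, true) ∈ η.pts)

/-- sum of a dart function over the label of the tag `d` -/
noncomputable def PvMap.lsum {V D : Type} (T : PvMap V D) (s : V → Bool) (w : D → ℂ) (d : D) : ℂ :=
  ∑ᶠ (d' : D) (_ : T.SameLab s d d'), w d'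

/-- a BULK FAMILY with extra vertices `X` -/
structure PvBulk (X : Type) where
  /-- vertices -/
  V : Set ℂ → Type
  /-- darts -/
  D : Set ℂ → Type
  /-- the triangulated surface: a function of the SITE SET only -/
  T : ∀ Y, PvMap (V Y) (D Y)
  /-- the name of a vertex: a site or an extra vertex -/
  lab : ∀ Y, V Y → ℂ ⊕ X

namespace PvBulk

variable {X : Type} (𝔅 : PvBulk X)

/-- position of a vertex (junk `0` at the extra vertices: never used, see `Emb`) -/
def pos (Y : Set ℂ) (v : 𝔅.V Y) : ℂ := Sum.elim id (fun _ => 0) (𝔅.lab Y v)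

/-- the three vertices of the face of `d` are sites -/
def Emb (Y : Set ℂ) (d : 𝔅.D Y) : Prop :=
  ∃ a b c : ℂ, 𝔅.lab Y ((𝔅.T Y).src d) = Sum.inl a ∧ 𝔅.lab Y ((𝔅.T Y).tgt d) = Sum.inl b ∧ 𝔅.lab Y ((𝔅.T Y).apex d) = Sum.inl c

/-- `T Y` is a simple sphere (or plane) which agrees with the Delaunay triangulation of `Y` at all faces with a vertex in `K` -/
structure Ok (Y K : Set ℂ) : Prop where
  sph : (𝔅.T Y).IsSph
  simple : (𝔅.T Y).Simple
  inj : Function.Injective (𝔅.lab Y)
  site : ∀ v p, 𝔅.lab Y v = Sum.inl p → p ∈ Y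
  /-- every Delaunay triangle with a vertex in `K` is a face -/
  face : ∀ a b c : ℂ, DelTri Y a b c → a ∈ K →
    ∃ d, 𝔅.lab Y ((𝔅.T Y).src d) = Sum.inl a ∧ 𝔅.lab Y ((𝔅.T Y).tgt d) = Sum.inl b ∧ 𝔅.lab Y ((𝔅.T Y).apex d) = Sum.inl c
  /-- every face with a vertex in `K` is a Delaunay triangle -/
  del : ∀ d a, 𝔅.lab Y ((𝔅.T Y).src d) = Sum.inl a → a ∈ K →
    ∃ b c : ℂ, 𝔅.lab Y ((𝔅.T Y).tgt d) = Sum.inl b ∧ 𝔅.lab Y ((𝔅.T Y).apex d) = Sum.inl c ∧ DelTri Y a b c
  /-- EVERY face whose three vertices are sites is a (positively oriented) Delaunay triangle, wherever it lies (defect found by 7: without this field a combinatorial outer face on three far sites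
  could have its barycentre in the support of the test;  the big Delaunay triangles are killed by MESH) -/
  emb : ∀ d a b c, 𝔅.lab Y ((𝔅.T Y).src d) = Sum.inl a → 𝔅.lab Y ((𝔅.T Y).tgt d) = Sum.inl b → 𝔅.lab Y ((𝔅.T Y).apex d) = Sum.inl c → DelTri Y a b c

/-- a FINITE sphere.      (The full Delaunay plane is NOT admitted: it has no consumer since Sec. 7 is off the route, and it would need `all walls are finite a.s.`, which no box exports: request of 210, 139, 161.) -/
def Adm (Y : Set ℂ) : Prop := Finite (𝔅.V Y) ∧ Finite (𝔅.D Y)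

/-- the colouring -/
noncomputable def col (η : Conf PvPt) (ξ : X → Bool) (v : 𝔅.V (cfSites η)) : Bool := Sum.elim (cfCol η) ξ (𝔅.lab (cfSites η) v)

open Classical in
/-- the `Q`-summand `f(z_t) q_t ω̄^j` -/
noncomputable def wQ (Y : Set ℂ) (f : ℂ → ℂ) (d : 𝔅.D Y) : ℂ :=
  if 𝔅.Emb Y d then f ((𝔅.T Y).bary (𝔅.pos Y) d) * (𝔅.T Y).qpart (𝔅.pos Y) d else 0

open Classical in
/-- the `V`-summand `f(z_t) d_{tj}` -/
noncomputable def wV (Y : Set ℂ) (f : ℂ → ℂ) (d : 𝔅.D Y) : ℂ :=
  if 𝔅.Emb Y d then f ((𝔅.T Y).bary (𝔅.pos Y) d) * (𝔅.T Y).side (𝔅.pos Y) d else 0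

/-- the label of the tag `d` is not contained in `B` -/
def Esc (Y : Set ℂ) (s : 𝔅.V Y → Bool) (B : Set ℂ) (d : 𝔅.D Y) : Prop :=
  ∃ d', (𝔅.T Y).SameLab s d d' ∧ ∀ p, 𝔅.lab Y ((𝔅.T Y).src d') = Sum.inl p → p ∉ B

/-- the bad event of bulk transport at level `τ` -/
def Bad (a : ℂ) (x : ℂ) (R : ℝ) (f : ℂ → ℂ) (τ : ℝ) : Set (PVSample × (X → Bool)) :=
  {p | 𝔅.Adm (cfSites (pvConf p.1)) ∧ 𝔅.Ok (cfSites (pvConf p.1)) (Metric.closedBall x (6 * R)) ∧
    ∃ d, (𝔅.T (cfSites (pvConf p.1))).Tag (𝔅.col (pvConf p.1) p.2) d ∧ 𝔅.Esc _ (𝔅.col (pvConf p.1) p.2) (Metric.ball x (4 * R)) d ∧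
      τ < ‖(𝔅.T _).lsum (𝔅.col (pvConf p.1) p.2) (𝔅.wQ _ f) d - a * (𝔅.T _).lsum (𝔅.col (pvConf p.1) p.2) (𝔅.wV _ f) d‖}

end PvBulk

/-- **BULK TRANSPORT** (Theorem 3.1; NO bound on `a`: Sec. 7 is off the route, ruling of 161, mirror trick of 211).      The subsequence and the scalar are common to all bulk families, balls and tests.
QUENCHED FORM (vocabulary `PppQ.lean` of 261): the probability of the bad event over the COLOURS (of the sites and of the extra vertices), at fixed labelled geometry `g`, is dominated by a MEASURABLE function `b n g` of the geometry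
with mean `→ 0`.      Reason: a bulk family is an ARBITRARY function of the site set (no measurability is asked), so the joint event need not be measurable and its joint outer measure is out of reach;
at fixed geometry it is an event of finitely many fair bits.      For a measurable family this is convergence in probability (`pvqu_law`, Fubini). -/
def PvTransport : Prop :=
  ∀ εs : ℕ → ℝ, (∀ n, 0 < εs n) → Tendsto εs atTop (𝓝 0) → ∃ φ : ℕ → ℕ, StrictMono φ ∧ ∃ a : ℂ,
    ∀ (X : Type) [Fintype X] (𝔅 : PvBulk X) (x : ℂ) (R : ℝ) (f : ℂ → ℂ), 0 < R → ContDiff ℝ ∞ f → tsupport f ⊆ Metric.ball x R → ∀ τ : ℝ, 0 < τ →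
      ∃ b : ℕ → PvGeoT → ENNReal, (∀ n, Measurable (b n)) ∧
        (∀ n g, (pvCol.prod (colLaw X)) {p | (pvMerge (g, p.1), p.2) ∈ 𝔅.Bad a x R f τ} ≤ b n g) ∧
        Tendsto (fun n => ∫⁻ g, b n g ∂(pvGeo (εs (φ n)))) atTop (𝓝 0)

theorem pvb_eqns_cite : True := by
  have := @cfCol.eq_1; have := @PvMap.lsum.eq_1; have := @PvBulk.pos.eq_1; have := @PvBulk.Emb.eq_1; have := @PvBulk.Adm.eq_1; have := @PvBulk.col.eq_1
  have := @PvBulk.wQ.eq_1; have := @PvBulk.wV.eq_1; have := @PvBulk.Esc.eq_1; have := @PvBulk.Bad.eq_1; have := @PvTransport.eq_1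
  trivial

end Claimed.Agent.R289
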