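import Mathlib

/-!
# Row 289 (S0537), Defs/Up : UPPER EXPECTATIONS (two-level probability without measurability)      (owner helper163, chief architect; prefix `pvup_`, `PvUp`)

WHY.  A bulk family `𝔅 : PvBulk X` is an ARBITRARY function of the site set.  Everything which reads the GLOBAL structure of the labels of `𝔅.T Y` (the rims, the Bessel majorant `W = sup_P |Q_P g|²`, the bad event)
is then measurable in the COLOURS at fixed geometry but not jointly, and its joint outer measure is out of reach (a set all of whose sections are small may have full outer measure).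
The transport machine uses of the probability only: monotone, finitely subadditive, positively homogeneous, mass `≤ 1` (Markov, union bounds, `xy ≤ λx² + y²/λ`).      So it runs over an UPPER EXPECTATION.

* `PvUp Ω`               monotone sublinear functional `E` on `Ω → ENNReal` with `E 1 ≤ 1`;   `U.P A = U.E (indicator of A)`
* `pvUpInt μ F`          the upper integral `⨅ {∫⁻ φ | φ measurable, F ≤ φ}`
* `PvUp.ofMeasure μ`     the upper integral of a probability measure
* `PvUp.iter γ κ`        ITERATED upper integral on `G × K`: `F ↦ ∫* (∫* F(g,k) dκ(k)) dγ(g)`      (`γ` = law of the geometry, `κ` = law of the colours, extra coins, seeds)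
INPUT LEMMAS   `pvup_iter_P_le` (any event: `≤` joint outer measure: use it for the events contained in a `𝔅`-free event),  `pvup_iter_E_le` (jointly measurable `F`),
               `pvup_iter_E_quenched` (`∀ g, ∫* F(g,·) dκ ≤ w g`, `w` measurable: Bessel)
OUTPUT LEMMA   `pvup_iter_out` : `(iter γ κ).P A < δ → ∃ b measurable, (∀ g, κ (section of A at g) ≤ b g) ∧ ∫⁻ b dγ < δ`      (the shape of `PvTransport`)
SEEDS          (preparation kernels of the wall) `iter γ (κ.prod σ)` on `G × (K × Sd)`: `pvup_seed_E_le`, `pvup_seed_P_le` (bounds on `iter γ κ` lift for free), `pvup_seed_joint_le` (any event `≤` outer measure of `(γ ⊗ κ) ⊗ σ`), `pvup_seed_out`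
-/

set_option autoImplicit false

namespace Claimed.Agent.R289

open MeasureTheory Set

/-- an UPPER EXPECTATION -/
structure PvUp (Ω : Type) where
  E : (Ω → ENNReal) → ENNReal
  mono : ∀ {F G : Ω → ENNReal}, (∀ ω, F ω ≤ G ω) → E F ≤ E G
  add_le : ∀ F G : Ω → ENNReal, E (fun ω => F ω + G ω) ≤ E F + E G
  smul_le : ∀ (c : ENNReal) (F : Ω → ENNReal), c ≠ ⊤ → E (fun ω => c * F ω) ≤ c * E F
  one_le : E (fun _ => 1) ≤ 1

/-- upper probability of an event -/
noncomputable def PvUp.P {Ω : Type} (U : PvUp Ω) (A : Set Ω) : ENNReal := U.E (A.indicator fun _ => 1)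

section calculus

variable {Ω : Type} (U : PvUp Ω)

theorem PvUp.E_zero : U.E (fun _ => 0) = 0 := by
  have h := U.smul_le 0 (fun _ => 0) ENNReal.zero_ne_top
  simpa using h

theorem PvUp.P_mono {A B : Set Ω} (h : A ⊆ B) : U.P A ≤ U.P B :=
  U.mono fun ω => indicator_le_indicator_of_subset h (fun _ => zero_le) ω

theorem PvUp.P_le_one (A : Set Ω) : U.P A ≤ 1 :=
  (U.mono fun ω => indicator_le_self' (fun _ _ => zero_le) ω).trans U.one_le

theorem PvUp.P_ne_top (A : Set Ω) : U.P A ≠ ⊤ := ne_top_of_le_ne_top ENNReal.one_ne_top (U.P_le_one A)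

theorem PvUp.P_empty : U.P ∅ = 0 := by simp [PvUp.P, U.E_zero]

theorem PvUp.P_union_le (A B : Set Ω) : U.P (A ∪ B) ≤ U.P A + U.P B := by
  refine (U.mono fun ω => ?_).trans (U.add_le _ _)
  by_cases hA : ω ∈ A <;> by_cases hB : ω ∈ B <;> simp [hA, hB]

theorem PvUp.P_biUnion_le {ι : Type} (S : Finset ι) (A : ι → Set Ω) : U.P (⋃ i ∈ S, A i) ≤ ∑ i ∈ S, U.P (A i) := by
  classical
  induction S using Finset.induction_on with
  | empty => simp [U.P_empty]
  | insert a s ha ih =>
    rw [Finset.set_biUnion_insert, Finset.sum_insert ha]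
    exact (U.P_union_le _ _).trans (add_le_add le_rfl ih)

theorem PvUp.E_sum_le {ι : Type} (S : Finset ι) (F : ι → Ω → ENNReal) : U.E (fun ω => ∑ i ∈ S, F i ω) ≤ ∑ i ∈ S, U.E (F i) := by
  classical
  induction S using Finset.induction_on with
  | empty => simp [U.E_zero]
  | insert a s ha ih =>
    simp only [Finset.sum_insert ha]
    exact (U.add_le _ _).trans (add_le_add le_rfl ih)

/-- Markov -/
theorem PvUp.markov (F : Ω → ENNReal) {t : ENNReal} (h0 : t ≠ 0) (ht : t ≠ ⊤) : U.P {ω | t ≤ F ω} ≤ U.E F / t := by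
  have h1 : U.P {ω | t ≤ F ω} ≤ U.E (fun ω => t⁻¹ * F ω) := by
    refine U.mono fun ω => ?_
    by_cases h : t ≤ F ω
    · have : (1 : ENNReal) ≤ t⁻¹ * F ω := by
        calc (1 : ENNReal) = t⁻¹ * t := (ENNReal.inv_mul_cancel h0 ht).symm
          _ ≤ t⁻¹ * F ω := by gcongr
      simpa [indicator, h] using this
    · simp [indicator, h]
  refine h1.trans ((U.smul_le _ _ (ENNReal.inv_ne_top.2 h0)).trans ?_)
  rw [mul_comm, ENNReal.div_eq_inv_mul, mul_comm]

end calculus

/-- the UPPER INTEGRAL -/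
noncomputable def pvUpInt {α : Type} [MeasurableSpace α] (μ : Measure α) (F : α → ENNReal) : ENNReal :=
  ⨅ φ : {φ : α → ENNReal // Measurable φ ∧ ∀ a, F a ≤ φ a}, ∫⁻ a, φ.1 a ∂μ

section upint

variable {α : Type} [MeasurableSpace α] (μ : Measure α)

theorem pvup_int_le {F φ : α → ENNReal} (hφ : Measurable φ) (h : ∀ a, F a ≤ φ a) : pvUpInt μ F ≤ ∫⁻ a, φ a ∂μ :=
  iInf_le (fun φ : {φ : α → ENNReal // Measurable φ ∧ ∀ a, F a ≤ φ a} => ∫⁻ a, φ.1 a ∂μ) ⟨φ, hφ, h⟩

theorem pvup_int_mono {F G : α → ENNReal} (h : ∀ a, F a ≤ G a) : pvUpInt μ F ≤ pvUpInt μ G :=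
  le_iInf fun φ => pvup_int_le μ φ.2.1 fun a => (h a).trans (φ.2.2 a)

theorem pvup_int_add (F G : α → ENNReal) : pvUpInt μ (fun a => F a + G a) ≤ pvUpInt μ F + pvUpInt μ G := by
  unfold pvUpInt
  rw [ENNReal.iInf_add]
  refine le_iInf fun φ => ?_
  rw [ENNReal.add_iInf]
  refine le_iInf fun ψ => ?_
  rw [← lintegral_add_left φ.2.1]
  exact pvup_int_le μ (φ.2.1.add ψ.2.1) fun a => add_le_add (φ.2.2 a) (ψ.2.2 a)

theorem pvup_int_smul (c : ENNReal) (F : α → ENNReal) (hc : c ≠ ⊤) : pvUpInt μ (fun a => c * F a) ≤ c * pvUpInt μ F := by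
  by_cases h0 : c = 0
  · subst h0
    simpa using pvup_int_le μ (F := fun a => 0 * F a) (φ := fun _ => 0) measurable_const (by simp)
  unfold pvUpInt
  rw [ENNReal.mul_iInf_of_ne h0 hc]
  refine le_iInf fun φ => ?_
  rw [← lintegral_const_mul c φ.2.1]
  exact pvup_int_le μ (φ.2.1.const_mul c) fun a => by gcongr; exact φ.2.2 a

theorem pvup_int_one [IsProbabilityMeasure μ] : pvUpInt μ (fun _ => 1) ≤ 1 := by
  simpa using pvup_int_le μ (F := fun _ => 1) (φ := fun _ => 1) measurable_const (fun _ => le_rfl)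

theorem pvup_int_of_meas {F : α → ENNReal} (hF : Measurable F) : pvUpInt μ F = ∫⁻ a, F a ∂μ :=
  le_antisymm (pvup_int_le μ hF fun _ => le_rfl) (le_iInf fun φ => lintegral_mono φ.2.2)

theorem pvup_int_ind (A : Set α) : pvUpInt μ (A.indicator fun _ => 1) = μ A := by
  refine le_antisymm ?_ (le_iInf fun φ => ?_)
  · refine (pvup_int_le μ (φ := (toMeasurable μ A).indicator fun _ => 1) (measurable_const.indicator (measurableSet_toMeasurable μ A))
      fun a => indicator_le_indicator_of_subset (subset_toMeasurable μ A) (fun _ => zero_le) a).trans ?_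
    rw [lintegral_indicator_const (measurableSet_toMeasurable μ A), one_mul, measure_toMeasurable]
  · have h1 : A ⊆ {a | 1 ≤ φ.1 a} := fun a ha => by simpa [indicator, ha] using φ.2.2 a
    calc μ A ≤ μ {a | 1 ≤ φ.1 a} := measure_mono h1
      _ ≤ (∫⁻ a, φ.1 a ∂μ) / 1 := meas_ge_le_lintegral_div φ.2.1.aemeasurable one_ne_zero ENNReal.one_ne_top
      _ = _ := by simp

theorem pvup_int_lt {F : α → ENNReal} {δ : ENNReal} (h : pvUpInt μ F < δ) : ∃ φ : α → ENNReal, Measurable φ ∧ (∀ a, F a ≤ φ a) ∧ ∫⁻ a, φ a ∂μ < δ := by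
  obtain ⟨φ, hφ⟩ := iInf_lt_iff.1 h
  exact ⟨φ.1, φ.2.1, φ.2.2, hφ⟩

end upint

/-- the upper integral of a probability measure -/
noncomputable def PvUp.ofMeasure {Ω : Type} [MeasurableSpace Ω] (μ : Measure Ω) [IsProbabilityMeasure μ] : PvUp Ω where
  E := pvUpInt μ
  mono := pvup_int_mono μ
  add_le := pvup_int_add μ
  smul_le := pvup_int_smul μ
  one_le := pvup_int_one μ

/-- the ITERATED upper integral: geometry `γ`, colours `κ` -/
noncomputable def PvUp.iter {G K : Type} [MeasurableSpace G] [MeasurableSpace K] (γ : Measure G) (κ : Measure K) [IsProbabilityMeasure γ] [IsProbabilityMeasure κ] : PvUp (G × K) where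
  E F := pvUpInt γ fun g => pvUpInt κ fun k => F (g, k)
  mono h := pvup_int_mono γ fun g => pvup_int_mono κ fun k => h (g, k)
  add_le _ _ := (pvup_int_mono γ fun _ => pvup_int_add κ _ _).trans (pvup_int_add γ _ _)
  smul_le c _ hc := (pvup_int_mono γ fun _ => pvup_int_smul κ c _ hc).trans (pvup_int_smul γ c _ hc)
  one_le := (pvup_int_mono γ fun _ => pvup_int_one κ).trans (pvup_int_one γ)

section iter

variable {G K : Type} [MeasurableSpace G] [MeasurableSpace K] (γ : Measure G) (κ : Measure K) [IsProbabilityMeasure γ] [IsProbabilityMeasure κ]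

theorem pvup_ofMeasure_P {Ω : Type} [MeasurableSpace Ω] (μ : Measure Ω) [IsProbabilityMeasure μ] (A : Set Ω) : (PvUp.ofMeasure μ).P A = μ A := pvup_int_ind μ A

theorem pvup_iter_P (A : Set (G × K)) : (PvUp.iter γ κ).P A = pvUpInt γ fun g => κ {k | (g, k) ∈ A} := by
  unfold PvUp.P PvUp.iter
  simp only
  congr 1
  funext g
  exact pvup_int_ind κ {k | (g, k) ∈ A}

/-- INPUT 1: jointly measurable integrands -/
theorem pvup_iter_E_le {F : G × K → ENNReal} (hF : Measurable F) : (PvUp.iter γ κ).E F ≤ ∫⁻ p, F p ∂(γ.prod κ) := by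
  rw [lintegral_prod _ hF.aemeasurable]
  refine pvup_int_le γ hF.lintegral_prod_right' fun g => ?_
  exact (pvup_int_of_meas κ (hF.comp measurable_prodMk_left)).le

/-- INPUT 2: any event, by its joint outer measure -/
theorem pvup_iter_P_le (A : Set (G × K)) : (PvUp.iter γ κ).P A ≤ (γ.prod κ) A := by
  have hm := measurableSet_toMeasurable (γ.prod κ) A
  calc (PvUp.iter γ κ).P A ≤ (PvUp.iter γ κ).P (toMeasurable (γ.prod κ) A) := (PvUp.iter γ κ).P_mono (subset_toMeasurable _ A)
    _ ≤ ∫⁻ p, (toMeasurable (γ.prod κ) A).indicator (fun _ => 1) p ∂(γ.prod κ) := pvup_iter_E_le γ κ (measurable_const.indicator hm)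
    _ = (γ.prod κ) A := by rw [lintegral_indicator_const hm, one_mul, measure_toMeasurable]

/-- INPUT 3: quenched bounds (Bessel) -/
theorem pvup_iter_E_quenched {F : G × K → ENNReal} {w : G → ENNReal} (hw : Measurable w) (h : ∀ g, pvUpInt κ (fun k => F (g, k)) ≤ w g) :
    (PvUp.iter γ κ).E F ≤ ∫⁻ g, w g ∂γ := pvup_int_le γ hw h

/-- OUTPUT: the shape of `PvTransport` -/
theorem pvup_iter_out {A : Set (G × K)} {δ : ENNReal} (h : (PvUp.iter γ κ).P A < δ) :
    ∃ b : G → ENNReal, Measurable b ∧ (∀ g, κ {k | (g, k) ∈ A} ≤ b g) ∧ ∫⁻ g, b g ∂γ < δ := by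
  rw [pvup_iter_P] at h
  exact pvup_int_lt γ h

end iter

/-! ## SEEDS: extra independent randomness `σ` (preparation kernels of the wall) in the second factor -/

section seeds

variable {G K Sd : Type} [MeasurableSpace G] [MeasurableSpace K] [MeasurableSpace Sd] (γ : Measure G) (κ : Measure K) (σ : Measure Sd)
  [IsProbabilityMeasure γ] [IsProbabilityMeasure κ] [IsProbabilityMeasure σ]

/-- the upper integral of a function which does not read the seed -/
theorem pvup_int_fst_le (F : K → ENNReal) : pvUpInt (κ.prod σ) (fun p => F p.1) ≤ pvUpInt κ F := by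
  refine le_iInf fun φ => ?_
  refine (pvup_int_le (κ.prod σ) (φ := fun p => φ.1 p.1) (φ.2.1.comp measurable_fst) fun p => φ.2.2 p.1).trans ?_
  rw [lintegral_prod (fun p : K × Sd => φ.1 p.1) (φ.2.1.comp measurable_fst).aemeasurable]
  simp

/-- LIFT of an expectation bound to the seeded space -/
theorem pvup_seed_E_le (F : G × K → ENNReal) : (PvUp.iter γ (κ.prod σ)).E (fun o => F (o.1, o.2.1)) ≤ (PvUp.iter γ κ).E F :=
  pvup_int_mono γ fun g => pvup_int_fst_le κ σ fun k => F (g, k)

/-- LIFT of a probability bound to the seeded space -/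
theorem pvup_seed_P_le (A : Set (G × K)) : (PvUp.iter γ (κ.prod σ)).P {o | (o.1, o.2.1) ∈ A} ≤ (PvUp.iter γ κ).P A :=
  pvup_seed_E_le γ κ σ (A.indicator fun _ => 1)

/-- any event of the seeded space, by its outer measure under `(γ ⊗ κ) ⊗ σ` -/
theorem pvup_seed_joint_le (B : Set ((G × K) × Sd)) : (PvUp.iter γ (κ.prod σ)).P {o | ((o.1, o.2.1), o.2.2) ∈ B} ≤ ((γ.prod κ).prod σ) B := by
  refine (pvup_iter_P_le γ (κ.prod σ) _).trans (le_of_eq ?_)
  rw [← Measure.prodAssoc_prod, MeasurableEquiv.map_apply]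
  rfl

/-- OUTPUT on the seeded space: the shape of `PvTransport` for an event which does not read the seed -/
theorem pvup_seed_out {A : Set (G × K)} {δ : ENNReal} (h : (PvUp.iter γ (κ.prod σ)).P {o | (o.1, o.2.1) ∈ A} < δ) :
    ∃ b : G → ENNReal, Measurable b ∧ (∀ g, κ {k | (g, k) ∈ A} ≤ b g) ∧ ∫⁻ g, b g ∂γ < δ := by
  obtain ⟨b, hb, h1, h2⟩ := pvup_iter_out γ (κ.prod σ) h
  refine ⟨b, hb, fun g => le_trans (le_of_eq ?_) (h1 g), h2⟩
  have e : {k : K × Sd | (g, k) ∈ {o : G × (K × Sd) | (o.1, o.2.1) ∈ A}} = {k | (g, k) ∈ A} ×ˢ (univ : Set Sd) := by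
    ext p; simp
  rw [e, Measure.prod_prod, measure_univ, mul_one]

end seeds

theorem pvup_eqns_cite : True := by
  have := @PvUp.P.eq_1; have := @pvUpInt.eq_1; have := @PvUp.ofMeasure.eq_1; have := @PvUp.iter.eq_1
  trivial

end Claimed.Agent.R289
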