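import Claimed.Agent.R289.Ppp
import Claimed.Agent.R289.End

/-!
# Row 289 (S0537), Defs/Top : VOCABULARY OF THE TOP OF THE HUB      (owner helper163, chief architect; prefix `pv`, `Pv`)

The top vocabulary `PvChart D d ψ`, `pvArcL`, `pvArcR`, `pvWhite`, `PvStrict`, `PvLower` is the one of helper212 (`R289/End.lean`).      Here: what the exits EXT and NICE need on top of it.
* `PvBk η W v`       `v` is a black site of `η : Conf PvPt` lying in `W`
* `PvVC η W A B`     black VERTEX crossing: chain of black sites lying in `W`, consecutive cells touching, from a site in `A` to a site in `B`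
* `PvAn D d ψ`       ANALYTIC chart: the disc chart extends holomorphically and injectively across the boundary (the subdomains `Ψ⁻¹((1-δ)𝔻)` of 254)
* `PvNice`           (exit of S8 = OBS, consumed by EXT)   inner probability of a black vertex crossing of an analytic quad, with tolerance `ρ`, `≥ cardyF x - η`
-/

set_option autoImplicit false

namespace Claimed.Agent.R289

open MeasureTheory ProbabilityTheory Set Filter Topology Claims.C0465

/-- `v` is a black site of `η` lying in `W` -/
def PvBk (η : Conf PvPt) (W : Set ℂ) (v : ℂ) : Prop := (v, true) ∈ η.pts ∧ v ∈ W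

/-- black VERTEX crossing of `W` from `A` to `B` -/
def PvVC (η : Conf PvPt) (W A B : Set ℂ) : Prop :=
  ∃ u v : ℂ, u ∈ A ∧ v ∈ B ∧ PvBk η W u ∧ Relation.ReflTransGen (fun a b => PvBk η W b ∧ (cfCell η a ∩ cfCell η b).Nonempty) u v

/-- ANALYTIC chart -/
structure PvAn (D : Set ℂ) (d : ℂ) (ψ : ℂ → ℂ) : Prop extends PvChart D d ψ where
  an : ∃ (N : Set ℂ) (g : ℂ → ℂ), IsOpen N ∧ closure D ⊆ N ∧ DifferentiableOn ℂ g N ∧ Set.InjOn g N ∧ D = N ∩ g ⁻¹' Metric.ball 0 1 ∧ g d = 1 ∧
    ∀ z ∈ closure D \ {d}, ψ z = Complex.I * (1 + g z) / (1 - g z)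

/-- **exit of S8**: the lower bound for the vertex crossing of every analytic quad, tolerance `ρ` -/
def PvNice : Prop :=
  ∀ (D : Set ℂ) (d : ℂ) (ψ : ℂ → ℂ), PvAn D d ψ → ∀ x : ℝ, 0 < x → x < 1 → ∀ ρ η : ℝ, 0 < ρ → 0 < η → ∀ᶠ ε in 𝓝[>] (0 : ℝ),
    ∃ E : Set PVSample, MeasurableSet E ∧
      E ⊆ {ω | PvVC (pvConf ω) (Metric.thickening ρ D) (Metric.thickening ρ (pvArcL D d ψ x)) (Metric.thickening ρ (pvArcR D d ψ))} ∧
      ENNReal.ofReal (cardyF x - η) ≤ pvLaw ε E

theorem pvtop_eqns_cite : True := by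
  have := @PvBk.eq_1; have := @PvVC.eq_1; have := @PvNice.eq_1
  trivial

end Claimed.Agent.R289
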