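-- KEEP
import Claimed.Agent.R289.Tr.Defs
import Claimed.Agent.R289.Tr.Spine
import Claimed.Agent.R289.Tr.CellChain
import Claimed.Agent.R289.Tr.Poly

/-!
# Row 289 (S0537), THE WALL, Defs/FitReg : THE REGIONS OF RECORD OF A CORRIDOR      (helper209; prefix `pvfe`, `Pvfe`; RULING 13 (3) of 234, RULING T2 of 24: source of `pvxrReg` of helper1)

A corridor = (door `z`, SCALED frame `d = δ · dout`, word `l : List PvtTurn`), vocabulary of 166 (`Tr/CellChain`): door `pvccZ z d l j`, frame `pvccD d l j`, centre `pvccC z d l j`, letter `pvccT l j`, placement `pvccK K₀ z d l j` of a reference region.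
REFERENCE CELL = `[0,1] × [-1/2,1/2]`, entered at the door `0` in the frame `1`; LEFT = `im > 0` (the strand runs `t → s` with BLACK ON ITS LEFT, white on its right).      OFFSET `u ∈ [-1/2,1/2]` = signed distance to the LEFT of the centre line.

* `pvfeLane a b τ`   the offsets `[a,b]` in the reference cell of the letter `τ` (rectangle for `S`, rectilinear elbow for `L`, `R`; the lanes of consecutive cells match on the common door)
* `pvfeLanes a b z d l`   the lane of the whole corridor;      `pvfeTube κ z d l` = the cells with their collar (`closedBall (centre j) (κ ‖d‖)`, `κ ≥ 1` contains the cell)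
* `pvfeIn`    = `Yin`  : offsets `[-1/10, 4/10]` (black inner lane `[1/10+, 4/10]`, white inner lane `[-1/10, 1/10]`: only their union is read) + the two inner mouths `closedBall y rI`
* `pvfeOut`   = `Yout` : offsets `[-4/10, -3/10]` (FAR half of the outer white lane `[-4/10,-2/10]`) + the two landing zones `closedBall y rO`, MINUS the `‖d‖/10`-neighbourhood of `Yin`
* `pvfeCol`   = `Ycol` : `cthickening (‖d‖/20)` of the inner lanes, NOT of the two balls (Tr/Defs v3, V1 of 145)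
* `pvfeBody`  = `Yreg` : tube + the two mouths with the collar `closedBall y (rO + κ ‖d‖)`
* **`pvfeReg Γ ty cs ct ys yt rI rO κ p : PvwPat`**   the pattern of the spine index `p : PvtsPat τ` (door `p.zt + Γ.pout p.tt`, frame `Γ.δ · Γ.dout p.tt`, word `p.l`);   `ys yt` = the grid centres of the two tip cells (`PvwTy.cm`, `PvwTy.cp` of Tr/Defs v3)
* `PvfeNR l`  no near return of the word (cells `j`, `k` with `j + 3 ≤ k` do not touch) = `PvtbCor` of 20 read on the word;      **`PvfeAdm`** = D20 of W1_208 v3: the tube misses the hull cells `Z⁺ = pvtN8 Z` off the two discs `closedBall y rA`;      **`PvfeNoz`** = MB: beyond its first / last straight link the corridor stays away from the two mouths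
* PROVED HERE: `pvfe_reg_wf` (`PvwPat.Wf`), projections (`rfl`), `pvfe_lanes_sub_tube`, `pvfe_reg_meas` (Borel), monotonicity.
* sec. 5 = THE LINES FOR `PvxPar.Wf` / `pvxPatSet`: **`pvfeRegAt`** (regions at the radii of record), **`PvfeDoors`** (doors in cell form), **`PvfeIx`** (index predicates: simple, no near return, D20, LK = strong MB, SEP)
RADII OF RECORD (D13, doc of `PvwPat`): `rI = ρ h / 2`, `rO = ρ h`, `κ = 3`, `rA = 2 ρ h`.      They are ARGUMENTS: nothing here depends on them.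
-/

set_option autoImplicit false

namespace Claimed.Agent.R289

open Set Metric

/-! ## 1. lanes, tube -/

/-- the offsets `[a,b]` in the reference cell of the letter `τ` -/
def pvfeLane (a b : ℝ) : PvtTurn → Set ℂ
  | PvtTurn.S => {w | 0 ≤ w.re ∧ w.re ≤ 1 ∧ a ≤ w.im ∧ w.im ≤ b}
  | PvtTurn.L => {w | (0 ≤ w.re ∧ w.re ≤ 1 / 2 - a ∧ a ≤ w.im ∧ w.im ≤ b) ∨ (1 / 2 - b ≤ w.re ∧ w.re ≤ 1 / 2 - a ∧ a ≤ w.im ∧ w.im ≤ 1 / 2)}
  | PvtTurn.R => {w | (0 ≤ w.re ∧ w.re ≤ 1 / 2 + b ∧ a ≤ w.im ∧ w.im ≤ b) ∨ (1 / 2 + a ≤ w.re ∧ w.re ≤ 1 / 2 + b ∧ -(1 / 2) ≤ w.im ∧ w.im ≤ b)}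

/-- the lane of offsets `[a,b]` of the corridor `(z,d,l)` -/
def pvfeLanes (a b : ℝ) (z d : ℂ) (l : List PvtTurn) : Set ℂ := ⋃ j ∈ Finset.range l.length, pvccK (pvfeLane a b) z d l j

/-- the cells of the corridor with their collar -/
def pvfeTube (κ : ℝ) (z d : ℂ) (l : List PvtTurn) : Set ℂ := ⋃ j ∈ Finset.range l.length, closedBall (pvccC z d l j) (κ * ‖d‖)

/-- `Yin` -/
def pvfeIn (rI : ℝ) (ys yt z d : ℂ) (l : List PvtTurn) : Set ℂ := pvfeLanes (-(1 / 10)) (4 / 10) z d l ∪ closedBall yt rI ∪ closedBall ys rI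

/-- `Yout` -/
def pvfeOut (rI rO : ℝ) (ys yt z d : ℂ) (l : List PvtTurn) : Set ℂ :=
  (pvfeLanes (-(4 / 10)) (-(3 / 10)) z d l ∪ closedBall yt rO ∪ closedBall ys rO) \ cthickening (‖d‖ / 10) (pvfeIn rI ys yt z d l)

/-- `Ycol` = the inner lanes with their closed collar `‖d‖/20` (NOT the two balls).      (v5: `‖d‖/20`, so that `Ycol` and `Yout` are `‖d‖/20` apart: 227.) -/
def pvfeCol (z d : ℂ) (l : List PvtTurn) : Set ℂ := cthickening (‖d‖ / 20) (pvfeLanes (-(1 / 10)) (4 / 10) z d l)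

/-- `Yreg` -/
def pvfeBody (rO κ : ℝ) (ys yt z d : ℂ) (l : List PvtTurn) : Set ℂ := pvfeTube κ z d l ∪ closedBall yt (rO + κ * ‖d‖) ∪ closedBall ys (rO + κ * ‖d‖)

/-- no near return: the cells `j`, `k` of the word (the cell after the word included) do not touch when `j + 3 ≤ k` -/
def PvfeNR (l : List PvtTurn) : Prop := ∀ j k, j + 3 ≤ k → k ≤ l.length → 2 ≤ pvccN (pvccC 0 1 l j - pvccC 0 1 l k)

/-- **D20**: the tube misses the cells of `Z⁺` off the two discs of radius `rA` -/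
def PvfeAdm (δ κ rA : ℝ) (ys yt z d : ℂ) (l : List PvtTurn) (Z : Set (ℤ × ℤ)) : Prop :=
  ∀ w ∈ pvfeTube κ z d l, w ∈ pvtU δ (pvtN8 Z) → w ∈ closedBall yt rA ∪ closedBall ys rA

/-- **MB** (118 296 62 20; E20 of W1_208 v3.3): the corridor minus its first link (`nt` straight cells) and its last link (`ns` straight cells) stays at distance `> rM` from the centres of the two mouths -/
def PvfeNoz (rM : ℝ) (ys yt z d : ℂ) (l : List PvtTurn) : Prop :=
  ∃ nt ns : ℕ, nt + ns ≤ l.length ∧ (∀ i, i < nt → pvccT l i = PvtTurn.S) ∧ (∀ i, l.length ≤ i + ns → i < l.length → pvccT l i = PvtTurn.S) ∧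
    ∀ i, nt ≤ i → i + ns < l.length → rM < ‖pvccC z d l i - yt‖ ∧ rM < ‖pvccC z d l i - ys‖

/-- **LK = MB in its strong form** (v5; (N) of 148, FzY of 208, FIT of 227).      `nt` = number of cells of the FIRST LINK, `ns` = number of cells of the LAST LINK: straight, of length `≤ rL`;
beyond its first link the corridor stays at distance `> rM` from `yt` (last link INCLUDED), before its last link at distance `> rM` from `ys` (first link INCLUDED);
the `2 ‖d‖`-collar of the MIDDLE cells misses the hull cells `Z` ALTOGETHER (no protected disc).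
(v6: `(2 ‖d‖, Z)` instead of `(3 ‖d‖, pvtN8 Z)`: a cell whose centre is at distance `rM = ρ h + 4 δ` of `y` has its `3 δ`-collar in the fattened cells of the mouth disc `closedBall y (ρ h)`, which belong to the hull: v5 was not producible.) -/
def PvfeLk (δ rM rL : ℝ) (ys yt z d : ℂ) (l : List PvtTurn) (Z : Set (ℤ × ℤ)) : Prop :=
  ∃ nt ns : ℕ, nt + ns ≤ l.length ∧ nt * δ ≤ rL ∧ ns * δ ≤ rL ∧ (∀ i, i < nt → pvccT l i = PvtTurn.S) ∧ (∀ i, l.length ≤ i + ns → i < l.length → pvccT l i = PvtTurn.S) ∧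
    (∀ i, nt ≤ i → i < l.length → rM < ‖pvccC z d l i - yt‖) ∧ (∀ i, i + ns < l.length → rM < ‖pvccC z d l i - ys‖) ∧
    ∀ i, nt ≤ i → i + ns < l.length → Disjoint (closedBall (pvccC z d l i) (2 * ‖d‖)) (pvtU δ Z)

theorem PvfeLk.noz {δ rM rL : ℝ} {ys yt z d : ℂ} {l : List PvtTurn} {Z : Set (ℤ × ℤ)} (h : PvfeLk δ rM rL ys yt z d l Z) : PvfeNoz rM ys yt z d l := by
  obtain ⟨nt, ns, h1, -, -, h2, h3, h4, h5, -⟩ := h
  exact ⟨nt, ns, h1, h2, h3, fun i hi hi' => ⟨h4 i hi (by omega), h5 i hi'⟩⟩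

/-! ## 2. the pattern of record -/

section reg

variable {τ : Type}

/-- the exit door of the pattern -/
noncomputable def pvfeZ (Γ : PvtsGeo τ) (p : PvtsPat τ) : ℂ := p.zt + Γ.pout p.tt

/-- the scaled frame at the exit door -/
noncomputable def pvfeD (Γ : PvtsGeo τ) (p : PvtsPat τ) : ℂ := (Γ.δ : ℂ) * Γ.dout p.tt

/-- **THE REGIONS OF RECORD** of the index `p` -/
noncomputable def pvfeReg (Γ : PvtsGeo τ) (ty : τ → PvwTy) (cs ct : Set ℂ) (ys yt : ℂ) (rI rO κ : ℝ) (p : PvtsPat τ) : PvwPat where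
  zs := p.zs
  ts := ty p.ts
  zt := p.zt
  tt := ty p.tt
  cs := cs
  ct := ct
  Yin := pvfeIn rI ys yt (pvfeZ Γ p) (pvfeD Γ p) p.l
  Ycol := pvfeCol (pvfeZ Γ p) (pvfeD Γ p) p.l
  Yout := pvfeOut rI rO ys yt (pvfeZ Γ p) (pvfeD Γ p) p.l
  Yreg := pvfeBody rO κ ys yt (pvfeZ Γ p) (pvfeD Γ p) p.l

theorem pvfe_norm_D (Γ : PvtsGeo τ) (p : PvtsPat τ) : ‖pvfeD Γ p‖ = |Γ.δ| := by
  unfold pvfeD
  rw [norm_mul, Γ.dout1, mul_one, Complex.norm_real, Real.norm_eq_abs]

theorem pvfe_D_ne (Γ : PvtsGeo τ) (p : PvtsPat τ) : pvfeD Γ p ≠ 0 := by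
  rw [← norm_ne_zero_iff, pvfe_norm_D]
  exact abs_ne_zero.2 Γ.δ0

/-- the last door of the corridor is the entrance door of `s` -/
theorem pvfe_last_door (Γ : PvtsGeo τ) {p : PvtsPat τ} (h : Γ.Ok p) : pvccZ (pvfeZ Γ p) (pvfeD Γ p) p.l p.l.length = p.zs + Γ.pin p.ts := by
  rw [pvccZ_length]
  unfold pvfeZ pvfeD pvtDisp
  rw [pvtAcc_eq_mul_one, mul_assoc, ← pvtAcc_eq_mul_one]
  have := h.1
  unfold pvtDisp at this
  rw [this]
  ring

end reg

/-! ## 3. elementary facts -/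

/-- a lane lies in the closed reference cell -/
theorem pvfe_lane_cell {a b : ℝ} (ha : -(1 / 2) ≤ a) (hb : b ≤ 1 / 2) (τ : PvtTurn) {w : ℂ} (hw : w ∈ pvfeLane a b τ) :
    0 ≤ w.re ∧ w.re ≤ 1 ∧ -(1 / 2) ≤ w.im ∧ w.im ≤ 1 / 2 := by
  cases τ with
  | S => obtain ⟨h1, h2, h3, h4⟩ := hw; exact ⟨h1, h2, by linarith, by linarith⟩
  | L =>
    rcases hw with ⟨h1, h2, h3, h4⟩ | ⟨h1, h2, h3, h4⟩
    · exact ⟨h1, by linarith, by linarith, by linarith⟩
    · exact ⟨by linarith, by linarith, by linarith, h4⟩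
  | R =>
    rcases hw with ⟨h1, h2, h3, h4⟩ | ⟨h1, h2, h3, h4⟩
    · exact ⟨h1, by linarith, by linarith, by linarith⟩
    · exact ⟨by linarith, by linarith, h3, by linarith⟩

/-- a point of the closed reference cell is within `1` of its centre -/
theorem pvfe_cell_norm {w : ℂ} (h : 0 ≤ w.re ∧ w.re ≤ 1 ∧ -(1 / 2) ≤ w.im ∧ w.im ≤ 1 / 2) : ‖w - 1 / 2‖ ≤ 1 := by
  obtain ⟨h1, h2, h3, h4⟩ := h
  have e1 : (w - 1 / 2).re = w.re - 1 / 2 := by simp
  have e2 : (w - 1 / 2).im = w.im := by simp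
  have := Complex.norm_le_abs_re_add_abs_im (w - 1 / 2)
  rw [e1, e2] at this
  have a1 : |w.re - 1 / 2| ≤ 1 / 2 := abs_le.2 ⟨by linarith, by linarith⟩
  have a2 : |w.im| ≤ 1 / 2 := abs_le.2 ⟨by linarith, by linarith⟩
  linarith

theorem pvfe_norm_frame (d : ℂ) (l : List PvtTurn) (j : ℕ) : ‖pvccD d l j‖ = ‖d‖ := pvt_norm_dir d _

/-- a placed lane lies in the ball of radius `‖d‖` round the centre of its cell -/
theorem pvfe_K_sub_ball {a b : ℝ} (ha : -(1 / 2) ≤ a) (hb : b ≤ 1 / 2) (z d : ℂ) (l : List PvtTurn) (j : ℕ) :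
    pvccK (pvfeLane a b) z d l j ⊆ closedBall (pvccC z d l j) ‖d‖ := by
  rintro _ ⟨u, hu, rfl⟩
  rw [mem_closedBall_iff_norm]
  have e : pvccZ z d l j + pvccD d l j * u - pvccC z d l j = pvccD d l j * (u - 1 / 2) := by
    unfold pvccC
    ring
  rw [e, norm_mul, pvfe_norm_frame]
  calc ‖d‖ * ‖u - 1 / 2‖ ≤ ‖d‖ * 1 := mul_le_mul_of_nonneg_left (pvfe_cell_norm (pvfe_lane_cell ha hb _ hu)) (norm_nonneg _)
    _ = ‖d‖ := mul_one _

theorem pvfe_lanes_sub_tube {a b κ : ℝ} (ha : -(1 / 2) ≤ a) (hb : b ≤ 1 / 2) (hκ : 1 ≤ κ) (z d : ℂ) (l : List PvtTurn) :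
    pvfeLanes a b z d l ⊆ pvfeTube κ z d l := by
  unfold pvfeLanes pvfeTube
  refine iUnion₂_mono fun j _ => (pvfe_K_sub_ball ha hb z d l j).trans (closedBall_subset_closedBall ?_)
  nlinarith [norm_nonneg d]

theorem pvfe_tube_mono {κ κ' : ℝ} (h : κ ≤ κ') (z d : ℂ) (l : List PvtTurn) : pvfeTube κ z d l ⊆ pvfeTube κ' z d l := by
  unfold pvfeTube
  exact iUnion₂_mono fun j _ => closedBall_subset_closedBall (mul_le_mul_of_nonneg_right h (norm_nonneg _))

theorem pvfe_mem_tube {κ : ℝ} {z d : ℂ} {l : List PvtTurn} {w : ℂ} : w ∈ pvfeTube κ z d l ↔ ∃ j, j < l.length ∧ ‖w - pvccC z d l j‖ ≤ κ * ‖d‖ := by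
  unfold pvfeTube
  simp only [mem_iUnion, Finset.mem_range, mem_closedBall_iff_norm, exists_prop]

theorem pvfe_in_sub_body {rI rO κ : ℝ} (hr : rI ≤ rO) (hκ : 1 ≤ κ) (ys yt z d : ℂ) (l : List PvtTurn) : pvfeIn rI ys yt z d l ⊆ pvfeBody rO κ ys yt z d l := by
  have h0 : rI ≤ rO + κ * ‖d‖ := by nlinarith [norm_nonneg d]
  unfold pvfeIn pvfeBody
  exact union_subset_union (union_subset_union (pvfe_lanes_sub_tube (by norm_num) (by norm_num) hκ z d l) (closedBall_subset_closedBall h0)) (closedBall_subset_closedBall h0)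

theorem pvfe_out_sub_body {rI rO κ : ℝ} (hκ : 1 ≤ κ) (ys yt z d : ℂ) (l : List PvtTurn) : pvfeOut rI rO ys yt z d l ⊆ pvfeBody rO κ ys yt z d l := by
  have h0 : rO ≤ rO + κ * ‖d‖ := by nlinarith [norm_nonneg d]
  unfold pvfeOut pvfeBody
  exact sdiff_subset.trans (union_subset_union (union_subset_union (pvfe_lanes_sub_tube (by norm_num) (by norm_num) hκ z d l) (closedBall_subset_closedBall h0)) (closedBall_subset_closedBall h0))

theorem pvfe_in_out_disj (rI rO : ℝ) (ys yt z d : ℂ) (l : List PvtTurn) : Disjoint (pvfeIn rI ys yt z d l) (pvfeOut rI rO ys yt z d l) := by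
  unfold pvfeOut
  exact (disjoint_sdiff_right).mono_left (self_subset_cthickening _)

theorem pvfe_col_out_disj (rI rO : ℝ) (ys yt z d : ℂ) (l : List PvtTurn) : Disjoint (pvfeCol z d l) (pvfeOut rI rO ys yt z d l) := by
  unfold pvfeOut pvfeCol
  refine disjoint_sdiff_right.mono_left ((cthickening_mono (by linarith [norm_nonneg d]) _).trans (cthickening_subset_of_subset _ ?_))
  unfold pvfeIn
  exact subset_union_left.trans subset_union_left

/-- the collar lies in the tube -/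
theorem pvfe_col_sub_tube {κ : ℝ} (hκ : 2 ≤ κ) (z : ℂ) {d : ℂ} (hd : d ≠ 0) (l : List PvtTurn) : pvfeCol z d l ⊆ pvfeTube κ z d l := by
  have h0 : 0 < ‖d‖ := norm_pos_iff.2 hd
  intro w hw
  have h1 := cthickening_subset_thickening' (show 0 < ‖d‖ / 5 by positivity) (show ‖d‖ / 20 < ‖d‖ / 5 by linarith) _ hw
  obtain ⟨u, hu, hwu⟩ := mem_thickening_iff.1 h1
  obtain ⟨j, hj, hC⟩ := pvfe_mem_tube.1 (pvfe_lanes_sub_tube (κ := 1) (by norm_num) (by norm_num) le_rfl z d l hu)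
  refine pvfe_mem_tube.2 ⟨j, hj, ?_⟩
  rw [dist_eq_norm] at hwu
  calc ‖w - pvccC z d l j‖ = ‖(w - u) + (u - pvccC z d l j)‖ := by ring_nf
    _ ≤ ‖w - u‖ + ‖u - pvccC z d l j‖ := norm_add_le _ _
    _ ≤ κ * ‖d‖ := by nlinarith

/-- `Yin` and `Yout` are `‖d‖/10` apart -/
theorem pvfe_in_out_far {rI rO : ℝ} {ys yt z d : ℂ} {l : List PvtTurn} {u w : ℂ} (hu : u ∈ pvfeIn rI ys yt z d l) (hw : w ∈ pvfeOut rI rO ys yt z d l) : ‖d‖ / 10 < ‖w - u‖ := by
  by_contra hc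
  rw [not_lt] at hc
  refine hw.2 (mem_cthickening_of_dist_le w u _ _ hu ?_)
  rwa [dist_eq_norm]

/-- **the regions of record fit together** -/
theorem pvfe_reg_wf {τ : Type} (Γ : PvtsGeo τ) (ty : τ → PvwTy) (cs ct : Set ℂ) (ys yt : ℂ) {rI rO κ : ℝ} (hr : rI ≤ rO) (hκ : 1 ≤ κ) (p : PvtsPat τ) :
    (pvfeReg Γ ty cs ct ys yt rI rO κ p).Wf where
  disj := pvfe_in_out_disj _ _ _ _ _ _ _
  in_sub := pvfe_in_sub_body hr hκ _ _ _ _ _
  out_sub := pvfe_out_sub_body hκ _ _ _ _ _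
  col := pvfe_col_out_disj _ _ _ _ _ _ _

/-! ## 4. Borel -/

theorem pvfe_lane_closed (a b : ℝ) (τ : PvtTurn) : IsClosed (pvfeLane a b τ) := by
  have hre : Continuous fun w : ℂ => w.re := Complex.continuous_re
  have him : Continuous fun w : ℂ => w.im := Complex.continuous_im
  have box : ∀ p q r s : ℝ, IsClosed {w : ℂ | p ≤ w.re ∧ w.re ≤ q ∧ r ≤ w.im ∧ w.im ≤ s} := fun p q r s =>
    (isClosed_le continuous_const hre).inter ((isClosed_le hre continuous_const).inter ((isClosed_le continuous_const him).inter (isClosed_le him continuous_const)))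
  cases τ with
  | S => exact box _ _ _ _
  | L => exact (box _ _ _ _).union (box _ _ _ _)
  | R => exact (box _ _ _ _).union (box _ _ _ _)

theorem pvfe_lanes_meas (a b : ℝ) (z : ℂ) {d : ℂ} (hd : d ≠ 0) (l : List PvtTurn) : MeasurableSet (pvfeLanes a b z d l) := by
  unfold pvfeLanes
  exact Finset.measurableSet_biUnion _ fun j _ => pvccK_measurable (fun τ => (pvfe_lane_closed a b τ).measurableSet) z hd l j

theorem pvfe_tube_meas (κ : ℝ) (z d : ℂ) (l : List PvtTurn) : MeasurableSet (pvfeTube κ z d l) := by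
  unfold pvfeTube
  exact Finset.measurableSet_biUnion _ fun j _ => isClosed_closedBall.measurableSet

theorem pvfe_reg_meas {τ : Type} (Γ : PvtsGeo τ) (ty : τ → PvwTy) (cs ct : Set ℂ) (ys yt : ℂ) (rI rO κ : ℝ) (p : PvtsPat τ) :
    MeasurableSet (pvfeReg Γ ty cs ct ys yt rI rO κ p).Yin ∧ MeasurableSet (pvfeReg Γ ty cs ct ys yt rI rO κ p).Yout ∧ MeasurableSet (pvfeReg Γ ty cs ct ys yt rI rO κ p).Yreg := by
  have hd := pvfe_D_ne Γ p
  have hb : ∀ (y : ℂ) (r : ℝ), MeasurableSet (closedBall y r) := fun y r => isClosed_closedBall.measurableSet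
  refine ⟨((pvfe_lanes_meas _ _ _ hd _).union (hb _ _)).union (hb _ _), (((pvfe_lanes_meas _ _ _ hd _).union (hb _ _)).union (hb _ _)).diff isClosed_cthickening.measurableSet,
    ((pvfe_tube_meas _ _ _ _).union (hb _ _)).union (hb _ _)⟩

theorem pvfe_col_closed (z d : ℂ) (l : List PvtTurn) : IsClosed (pvfeCol z d l) := isClosed_cthickening

theorem pvfe_reg_eqns_cite : True := by
  have := @pvfeLane.eq_1; have := @pvfeLanes.eq_1; have := @pvfeTube.eq_1; have := @pvfeIn.eq_1; have := @pvfeOut.eq_1; have := @pvfeBody.eq_1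
  have := @PvfeNR.eq_1; have := @PvfeAdm.eq_1; have := @pvfeCol.eq_1; have := @PvfeNoz.eq_1; have := @PvfeLk.eq_1; have := @pvfeZ.eq_1; have := @pvfeD.eq_1; have := @pvfeReg.eq_1
  trivial

/-! ## 5. THE LINES FOR `PvxPar.Wf` AND `pvxPatSet` (upstream of `Defs/TrModel`: no `PvxPar` here) -/

section lines

variable {τ : Type}

/-- the four unit vectors of the grid -/
def PvfeDir (u : ℤ × ℤ) : Prop := u = (1, 0) ∨ u = (-1, 0) ∨ u = (0, 1) ∨ u = (0, -1)

/-- **the regions of record at the radii of record** (D13 of W1_208 v3, Tr/Defs v3): tip cells `z + h · cm`, `z + h · cp`, grid centres `PvwTy.cm`, `PvwTy.cp`, `r_I = ρ h / 2`, `r_O = ρ h`, `κ = 3` -/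
noncomputable def pvfeRegAt (Γ : PvtsGeo τ) (ty : τ → PvwTy) (cp cm : τ → Set ℂ) (N : PvwNum) (h : ℝ) (p : PvtsPat τ) : PvwPat :=
  pvfeReg Γ ty ((fun w : ℂ => p.zs + (h : ℂ) * w) '' cm p.ts) ((fun w : ℂ => p.zt + (h : ℂ) * w) '' cp p.tt) ((ty p.ts).cm h p.zs) ((ty p.tt).cp h p.zt) (N.rho * h / 2) (N.rho * h) 3 p

/-- **THE DOORS, IN CELL FORM** (cells of `pvtSq Γ.δ`, RELATIVE to the centre of the pin, which lies on `h ℤ² ⊆ δ ℤ²`).      `e` = BASE CELL = first (last) cell of every chain which leaves (arrives at) a pin of the type, `u` = outer normal.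
The door is the side of `e` which looks at the box;   `e` contains (up to `δ`) the point `h (y + (3ρ/8) u)`: OUTSIDE the box of the level (`nd`: the grid centre `y` is within `ρ h / 4` of the boundary), INSIDE the inner mouth `closedBall (h y) (ρ h / 2)`;
`u` = the DOMINANT direction of `y` (corners are no exception). -/
structure PvfeDoors (Γ : PvtsGeo τ) (ty : τ → PvwTy) (N : PvwNum) (h : ℝ) : Prop where
  out : ∀ t, ∃ e u : ℤ × ℤ, PvfeDir u ∧ Γ.pout t = (pvtCtr Γ.δ (e - u) + pvtCtr Γ.δ e) / 2 ∧ Γ.dout t = pvtZ u ∧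
    ‖pvtCtr Γ.δ e - (h : ℂ) * ((ty t).yp + ((3 * N.rho / 8 : ℝ) : ℂ) * pvtZ u)‖ ≤ Γ.δ ∧ ((ty t).yp * (starRingEnd ℂ) (pvtZ u)).re = pvccN (ty t).yp
  inn : ∀ t, ∃ e u : ℤ × ℤ, PvfeDir u ∧ Γ.pin t = (pvtCtr Γ.δ e + pvtCtr Γ.δ (e - u)) / 2 ∧ Γ.din t = - pvtZ u ∧
    ‖pvtCtr Γ.δ e - (h : ℂ) * ((ty t).ym + ((3 * N.rho / 8 : ℝ) : ℂ) * pvtZ u)‖ ≤ Γ.δ ∧ ((ty t).ym * (starRingEnd ℂ) (pvtZ u)).re = pvccN (ty t).ym
  /-- NON-DEGENERATE MENU (73): the grid centres of the tip cells sit on the boundary of the box of the level -/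
  nd_p : ∀ t, |pvccN (ty t).yp - (2 * (ty t).b2 + (ty t).k * N.rho1)| ≤ N.rho / 4
  nd_m : ∀ t, |pvccN (ty t).ym - (2 * (ty t).b2 + (ty t).k * N.rho1)| ≤ N.rho / 4

/-- **THE INDEX PREDICATES** (D20 + MB + SEP): properties of the index `(p, Z)` ONLY, `Z` = the union of the two hulls.      v5: `lk` (strong form of `noz`: `PvfeLk.noz`), `sep` ((S) of 148). -/
structure PvfeIx (Γ : PvtsGeo τ) (ty : τ → PvwTy) (N : PvwNum) (h : ℝ) (p : PvtsPat τ) (Z : Set (ℤ × ℤ)) : Prop where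
  simple : PvccSimple p.l p.l.length
  nr : PvfeNR p.l
  adm : PvfeAdm Γ.δ 3 (2 * N.rho * h) ((ty p.ts).cm h p.zs) ((ty p.tt).cp h p.zt) (pvfeZ Γ p) (pvfeD Γ p) p.l Z
  lk : PvfeLk Γ.δ (N.rho * h + 4 * Γ.δ) (3 * N.rho * h) ((ty p.ts).cm h p.zs) ((ty p.tt).cp h p.zt) (pvfeZ Γ p) (pvfeD Γ p) p.l Z
  /-- the largest boxes of the two pins are `8 h` apart -/
  sep : 2 * (pvwRad N h (ty p.ts) N.K + pvwRad N h (ty p.tt) N.K) + 8 * h ≤ ‖p.zs - p.zt‖

theorem pvfe_regAt_wf (Γ : PvtsGeo τ) (ty : τ → PvwTy) (cp cm : τ → Set ℂ) {N : PvwNum} {h : ℝ} (hρ : 0 ≤ N.rho * h) (p : PvtsPat τ) : (pvfeRegAt Γ ty cp cm N h p).Wf :=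
  pvfe_reg_wf _ _ _ _ _ _ (by linarith) (by norm_num) _

theorem pvfe_regAt_meas (Γ : PvtsGeo τ) (ty : τ → PvwTy) (cp cm : τ → Set ℂ) (N : PvwNum) (h : ℝ) (p : PvtsPat τ) :
    MeasurableSet (pvfeRegAt Γ ty cp cm N h p).Yin ∧ MeasurableSet (pvfeRegAt Γ ty cp cm N h p).Yout ∧ MeasurableSet (pvfeRegAt Γ ty cp cm N h p).Yreg :=
  pvfe_reg_meas _ _ _ _ _ _ _ _ _ _

theorem pvfe_lines_eqns_cite : True := by
  have := @PvfeDir.eq_1; have := @pvfeRegAt.eq_1
  trivial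

end lines

end Claimed.Agent.R289
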