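import Claimed.Agent.R289.Tr.Defs
import Claimed.Agent.R289.Tr.Hub
import Claimed.Agent.R289.Tr.Lim
import Claimed.Agent.R289.Tr.Poly
import Claimed.Agent.R289.Del.Bulk
import Claimed.Agent.R289.Defs.FitReg

/-!
# Row 289 (S0537), THE WALL, Defs/TrModel : THE DATA FIELDS OF `PvhbLoc` ON THE PLAIN SAMPLE, ROAD E      (owner helper187, pen of `Exit/Tr.lean`; prefix `pvx`, `Pvx`)

WHAT.  `Tr/Defs.lean` (216 25 150) defines states, pins, data, cylinders on an ABSTRACT `(T : PvMap V D) (pos : V → ℂ) (s : V → Bool)`.      `Tr/Hub.lean` (73) asks for `pins U Pat pat Fit` as functions of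
`(level m, sample ω : PVSample, ENCODED rim P : PvbRim)`, where `P` runs through the rims of ALL completions (`pvhbAll x R ω`).      This file is the dictionary of record between the two: every roof under `PvhbLoc` (PINS 12, COVER 143 209, N1 170,
CYC1 / THICK 129 58, MEAS 247, DICT 161 195) states its exit for THESE definitions.      No theorem here, no probability.

* sec. 1  the plane map of a sample: `pvxY pvxT pvxPos pvxCol` (`pvxT ω` = the TOTAL Delaunay plane `(delbPl Y).toMap` of 219; `= (delPl h).toMap` by `delb_pl_eq` when `DelGood Y`);   `pvxCol ω b v = true` iff the site `v` has the colour `b`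
* sec. 2  `PvxPar τ c` = THE PARAMETERS (menu, fixed numbers, what a type `t : τ` prescribes, doors, regions of a pattern);   scales of record = `pvlmH pvlmR pvlmDel` of 247 (`Tr/Lim.lean`): NOT parameters;   `PvxPar.Wf` = explicit constraints ONLY
* sec. 3  `PvxAt` (the state of the candidate `(z,t)`), `pvxU` (usable candidates)
* sec. 4  `PvxPinOf` (= `PvwSt.PinOf` in ENCODED form: positions only; the cut vertex `P.v 0 = P.v len` is far), `pvxPins`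
* sec. 5  `PvxIx` (index of a pattern = `PvtsPat` of the spine + the two `δ`-hulls of RULING 9 (2)), `pvxPatSet`, `PvxActual` (= `PvwDat.Actual`, encoded), `pvxFit`
LOGIC OF THE CUT (`Exit/Tr.lean`).   (S1) PINS: `∃ τ 𝔓, 𝔓.Wf ∧ ∀ x R, pinsOK` = the ONLY roof which CHOOSES constants.   (S2) cover, (S3) n1 cyc1 thick numbers: FOR ALL `𝔓` with `𝔓.Wf`.
A roof that needs one more explicit constraint on the parameters: ONE line to 187, a field is added to `Wf`.      RULE (115): nobody uses under (S2), (S3) a property of `𝔓` which is not ALREADY a field of `Wf` on main; (S1) re-proves every field.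
v2 (09:50Z): statements over the TWO-LEVEL upper expectation `pvhbUp ε = PvUp.iter (pvGeo ε) pvCol` (RULING H1 of 73; no measurability field);   `pvxPins` restricted to centres in `closedBall x (3R)` (defect FAR PINS, 163);
SECOND ACTUAL GATE in the pin (RULING 9bis of 234);   `len`, `bnd` explicit (`pvxLen`, `pvxBnd`);   measurability and positivity in `Wf` (112).
v3 (10:00Z): `pvxFit 𝔓 x R ..` confines the whole arc to `closedBall x (5R)` (195, 276 D2: the tags of a completion are the plane tags only in the agreement ball);   RULING T2 of 24: `Wf = WfB` (BASE data `𝔐 num col ty ty2 cp cm Mp Mm`: all that `pvxU`, `pvxPins`,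
`PvxPinsOK` read; producer = roof PINS, 12) `+` the fields on `Γ`, `reg` (producer = roof PAR, helper1, `Exit/TrPar.lean`);   `PvxPar.upd`.
**v4 (11:20Z, second pen helper207; RULINGS 17, 18 (1) of 234, T8 (4) of 24: ONE landing, THEN FROZEN = APPEND-ONLY)** = v3 adapted to `Tr/Defs` v3 + EXACTLY the items (a) (b) (e).
ADAPTATION (lines of 209, T1-T3 of 91): `PvxPinOf 𝔖 N h yp ym BK P j`: the mouths are `closedBall y± (2 ρ h)` round the GRID centres `y⁺ = (ty t).cp h z`, `y⁻ = (ty t).cm h z` (as `PvwSt.PinOut / PinIn`);   `PvxActual`, `pvxPins` pass these centres;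
`PvxAt.tip_p / tip_m` test the BLACK END of the tip dart (as `PvwDat.Ok.tip_t / tip_s`: one-vertex test, ruling 13 (2));   the mouths of the hulls of `pvxFit` are centred at the grid centres `pvxYs`, `pvxYt`.
(a) MASKS (146 M1): new fields `PvxAt.inn_p / inn_m`: the half `inn[ip, n]` of the inner arc, off `closedBall z ((m - 1) h)`, lies in the mask `Mp`, the half `inn[0, ip]` in the mask `Mm`.
(b) INDEX CLAUSES of `pvxPatSet` (`pvxPatSet0` = the clauses of v3): (b1) 63: the largest boxes of the two pins are disjoint;   (b2) + Q1 of 60: `2 r_K + h ≤ R` for both pins (so both boxes lie in `closedBall x (5R)`, `b h + h < R`);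
(b3) `PvfeIx` of 209 (`Defs/FitReg` sec. 5): `PvccSimple`, `PvfeNR`, `PvfeAdm`, `PvfeNoz` at the doors and radii of record.      COVER pays (b) for `m` large.
(e) SMALL LEVELS (73): `PvxPar.m0`, `PvxAt.lev0 : m0 ≤ m` (below the level `m0`: `pvxU = ∅`, no pin, no fit; every fact on `Γ m`, `reg m` is owed for `m0 ≤ m` only; `upd` keeps `m0`).      `ty2` stays;   NO `Reg`, NO flag for it (R17 (c));   `Wf` is UNTOUCHED:
all roofs are stated at `pvxParOf N hN c` (R17 (d)), a further fact on the parameters (`reg = pvfeRegAt ..`, `PvfeDoors`, `m + 1 < a`) = a LEMMA at `pvxParOf` (`Exit/Par.lean`, 73), not a field.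
**v4.1 (12:55Z, 187; RULING 20 (1) of 234, amended 11:54Z: ONE APPENDED CLAUSE, THEN NO v4.2)**:   (b5) LAST clause of `pvxPatSet`: `(reg m π).Yreg ∪ (reg m π).Ycol ⊆ Metric.ball x (5 R)` (OPEN ball; `Yin, Yout ⊆ Yreg` by `PvwPat.Wf`).
COVER pays it ((L2): field `reg5` of `PvfhCor`, `exit_pvcb_reg5`, PROVED).      (FZ) is NOT a clause: it is a LEMMA (274, `Tr/FitFz.lean`).
-/

set_option autoImplicit false

namespace Claimed.Agent.R289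

open Set Claims.C0465

/-! ## 1. the plane map of a sample -/

/-- the sites of the sample -/
def pvxY (ω : PVSample) : Set ℂ := cfSites (pvConf ω)

/-- the Delaunay triangulation of the whole plane (total definition of 219) -/
noncomputable def pvxT (ω : PVSample) : PvMap ↥(pvxY ω) (delbPl (pvxY ω)).Dart := (delbPl (pvxY ω)).toMap

/-- positions -/
def pvxPos (ω : PVSample) : ↥(pvxY ω) → ℂ := Subtype.val

/-- the colouring seen by a rim of colour `b`: `true` = the colour `b` ("black" of `Tr/Defs`) -/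
noncomputable def pvxCol (ω : PVSample) (b : Bool) : ↥(pvxY ω) → Bool := fun v => cfCol (pvConf ω) v.1 == b

/-- the set `S` (units of `h`, relative to the centre) placed at `z` -/
def pvxPl (z : ℂ) (h : ℝ) (S : Set ℂ) : Set ℂ := (fun w : ℂ => z + (h : ℂ) * w) '' S

/-! ## 2. the parameters -/

/-- **index of a pattern**: what the spine sees (`PvtsPat`: centres, types, word of the corridor) + the `δ`-hulls `Z₀` of `Σ_in(s)`, `Σ_out(t)` (RULING 9 (2) of 234: the state carries `η` on `Z₀⁺` only) -/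
structure PvxIx (τ : Type) where
  p : PvtsPat τ
  Zs : Finset (ℤ × ℤ)
  Zt : Finset (ℤ × ℤ)

/-- **THE PARAMETERS OF ROAD E**.      All sets attached to a type are in units of `h`, relative to the centre of the pin. -/
structure PvxPar (τ : Type) (c : ℝ) where
  /-- the numbers consumed by S6b: `mc = m`, `b2`, `a3 ≤ a`, `b ≤ L` -/
  𝔐 : PvbMenu τ
  /-- `m ρ ρ₁ ρ₂ K` -/
  num : PvwNum
  /-- the colour of the rim -/
  col : τ → Bool
  /-- gate annulus and level -/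
  ty : τ → PvwTy
  /-- annulus of the SECOND ACTUAL gate `S₂` (RULING 9bis: not frozen, not in the state; only `a`, `b` matter) -/
  ty2 : τ → PvwTy
  /-- cell of the tip `x⁺` -/
  cp : τ → Set ℂ
  /-- cell of the tip `x⁻` -/
  cm : τ → Set ℂ
  /-- mask of the rim arc `LE(black bank of Σ⁺)` (R-D of W1_208 v2) -/
  Mp : τ → Set ℂ
  /-- mask of the rim arc `LE(black bank of Σ⁻)` -/
  Mm : τ → Set ℂ
  /-- the first level at which the doors, the lanes and the reference plug fit (73): no candidate is usable below it -/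
  m0 : ℕ
  /-- doors of the types and reference words, level by level -/
  Γ : ℕ → PvtsGeo τ
  /-- the regions of a pattern of level `m` (lanes of the corridor, mouths, collar) -/
  reg : ℕ → PvxIx τ → PvwPat

namespace PvxPar

variable {τ : Type} {c : ℝ} (𝔓 : PvxPar τ c)

/-- the largest box of a candidate -/
def box (m : ℕ) (z : ℂ) (t : τ) : Set ℂ := pvwSq z (pvwRad 𝔓.num (pvlmH m) (𝔓.ty t) 𝔓.num.K)

/-- **explicit constraints on the BASE data** `𝔐 num col ty ty2 cp cm Mp Mm m0`      [producer: roof PINS, 12] -/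
structure WfB : Prop where
  /-- S6b menu against the numbers of the wall -/
  mc_eq : ∀ t, 𝔓.𝔐.mc t = 𝔓.num.m
  a3_le : ∀ t, 𝔓.𝔐.a3 t ≤ (𝔓.ty t).a
  b_le : ∀ t, (𝔓.ty t).b ≤ 𝔓.𝔐.L
  a0 : ∀ t, 0 < (𝔓.ty t).a
  ab : ∀ t, (𝔓.ty t).a < (𝔓.ty t).b
  /-- the second gate lies outside the first -/
  gap : ∀ t, (𝔓.ty t).b + 2 ≤ (𝔓.ty2 t).a
  ab2 : ∀ t, (𝔓.ty2 t).a < (𝔓.ty2 t).b
  b2_le : ∀ t, (𝔓.ty2 t).b ≤ 𝔓.𝔐.L
  lev : ∀ t, (𝔓.ty t).k ≤ 𝔓.num.K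
  /-- `0 < ρ < ρ₁ < ρ₂ < 1` -/
  rho0 : 0 < 𝔓.num.rho
  rho1 : 𝔓.num.rho < 𝔓.num.rho1
  rho2 : 𝔓.num.rho1 < 𝔓.num.rho2
  rho3 : 𝔓.num.rho2 < 1
  /-- SEP -/
  sep : ∀ t, Disjoint (𝔓.Mp t) (𝔓.Mm t)
  /-- all the sets of the menu are Borel -/
  cp_meas : ∀ t, MeasurableSet (𝔓.cp t)
  cm_meas : ∀ t, MeasurableSet (𝔓.cm t)
  Mp_meas : ∀ t, MeasurableSet (𝔓.Mp t)
  Mm_meas : ∀ t, MeasurableSet (𝔓.Mm t)

/-- **explicit constraints on the parameters** = `WfB` + the constraints on the doors `Γ` and on the regions `reg`      [producer: roof PAR, helper1]      (INCOMPLETE BY DESIGN: the roofs ask 187 for the fields they need) -/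
structure Wf : Prop extends 𝔓.WfB where
  reg_meas : ∀ m π, MeasurableSet (𝔓.reg m π).Yin ∧ MeasurableSet (𝔓.reg m π).Yout ∧ MeasurableSet (𝔓.reg m π).Yreg
  /-- the mesh of the cells is the one of record -/
  del : ∀ m, (𝔓.Γ m).δ = pvlmDel c m
  /-- the regions of a pattern belong to its index -/
  reg_zs : ∀ m π, (𝔓.reg m π).zs = π.p.zs
  reg_zt : ∀ m π, (𝔓.reg m π).zt = π.p.zt
  reg_ts : ∀ m π, (𝔓.reg m π).ts = 𝔓.ty π.p.ts
  reg_tt : ∀ m π, (𝔓.reg m π).tt = 𝔓.ty π.p.tt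
  reg_cs : ∀ m π, (𝔓.reg m π).cs = pvxPl π.p.zs (pvlmH m) (𝔓.cm π.p.ts)
  reg_ct : ∀ m π, (𝔓.reg m π).ct = pvxPl π.p.zt (pvlmH m) (𝔓.cp π.p.tt)
  reg_wf : ∀ m π, (𝔓.reg m π).Wf

/-- the same base data with other doors and regions -/
def upd (Γ : ℕ → PvtsGeo τ) (reg : ℕ → PvxIx τ → PvwPat) : PvxPar τ c := { 𝔓 with Γ := Γ, reg := reg }

end PvxPar

/-! ## 3. the state of a candidate -/

section model

variable {τ : Type} {c : ℝ} (𝔓 : PvxPar τ c)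

/-- **`𝔖` IS THE STATE OF THE CANDIDATE `(z,t)` IN THE SAMPLE `ω`, LEVEL `m`** -/
structure PvxAt (m : ℕ) (ω : PVSample) (z : ℂ) (t : τ) (𝔖 : PvwSt (pvxT ω)) : Prop where
  good : DelGood (pvxY ω)
  st : 𝔖.At (pvxPos ω) 𝔓.num (pvlmH m) z (𝔓.ty t) (pvxCol ω (𝔓.col t))
  /-- the BLACK ends of the tip darts lie in the cells prescribed by the type (one-vertex tests, as `PvwDat.Ok.tip_t`, `tip_s`) -/
  tip_p : pvxPos ω ((pvxT ω).src (𝔖.ep 𝔖.np)) ∈ pvxPl z (pvlmH m) (𝔓.cp t)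
  tip_m : pvxPos ω ((pvxT ω).src (𝔖.em 𝔖.nm)) ∈ pvxPl z (pvlmH m) (𝔓.cm t)
  /-- the rim arcs carried by the stubs lie in the masks prescribed by the type -/
  mask_p : ∀ y : (pvxT ω).Pth, PvwLE (pvxT ω) (fun i => (pvxT ω).src (𝔖.ep i)) 𝔖.np y → ∀ v ∈ y.verts, pvxPos ω v ∈ pvxPl z (pvlmH m) (𝔓.Mp t)
  mask_m : ∀ y : (pvxT ω).Pth, PvwLE (pvxT ω) (fun i => (pvxT ω).src (𝔖.em i)) 𝔖.nm y → ∀ v ∈ y.verts, pvxPos ω v ∈ pvxPl z (pvlmH m) (𝔓.Mm t)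
  /-- the two halves of the inner arc, cut at the MARK, lie in the masks off the cut-off ball (R17 (a) of 234 = M1 of 146) -/
  inn_p : ∀ i, 𝔖.ip ≤ i → i ≤ 𝔖.inn.n → (𝔓.num.m - 1) * pvlmH m < ‖pvxPos ω (𝔖.inn.v i) - z‖ → pvxPos ω (𝔖.inn.v i) ∈ pvxPl z (pvlmH m) (𝔓.Mp t)
  inn_m : ∀ i, i ≤ 𝔖.ip → (𝔓.num.m - 1) * pvlmH m < ‖pvxPos ω (𝔖.inn.v i) - z‖ → pvxPos ω (𝔖.inn.v i) ∈ pvxPl z (pvlmH m) (𝔓.Mm t)
  /-- no candidate below the level `m0` (R18 (1) of 234, 73) -/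
  lev0 : 𝔓.m0 ≤ m

/-- the candidate `(z,t)` is USABLE: its state exists.      An event READ FROM THE STATE (no flag, no rim). -/
def pvxU (m : ℕ) (z : ℂ) (t : τ) : Set PVSample := {ω | ∃ 𝔖 : PvwSt (pvxT ω), PvxAt 𝔓 m ω z t 𝔖}

/-! ## 4. pins of an encoded rim -/

/-- **`PvwSt.PinOf` IN ENCODED FORM** (`j` = the place of `g⁻` on `P`, `BK` = the largest box, `yp ym` = the grid centres `y⁺ y⁻` of the tip cells): `P` runs through the gate along the inner arc;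
`P` minus its arc inside `BK` AFTER the gate misses the mouth `closedBall y⁺ (2 ρ h)`;   `P` minus its arc inside `BK` BEFORE the gate misses the mouth `closedBall y⁻ (2 ρ h)`.      The rim is cut at `P.v 0 = P.v P.len`, far from the pin: no wrap-around. -/
structure PvxPinOf {ω : PVSample} (𝔖 : PvwSt (pvxT ω)) (N : PvwNum) (h : ℝ) (yp ym : ℂ) (BK : Set ℂ) (P : PvbRim) (j : ℕ) : Prop where
  le : j + 𝔖.inn.n < P.len
  run : ∀ i, i ≤ 𝔖.inn.n → P.v (j + i) = pvxPos ω (𝔖.inn.v i)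
  mouth_p : ∃ B, j + 𝔖.inn.n + B < P.len ∧ (∀ i, i ≤ B → P.v (j + 𝔖.inn.n + i) ∈ BK) ∧
    ∀ k, k ≤ P.len → (k ≤ j ∨ j + 𝔖.inn.n + B < k) → 2 * N.rho * h < ‖P.v k - yp‖
  mouth_m : ∃ A, A < j ∧ (∀ i, i ≤ A → P.v (j - i) ∈ BK) ∧
    ∀ k, k ≤ P.len → (k + A < j ∨ j + 𝔖.inn.n ≤ k) → 2 * N.rho * h < ‖P.v k - ym‖

/-- **THE QUALIFIED PINS OF THE ENCODED RIM `P`** at level `m` in the patch `(x,R)`: a function of (sample, encoded rim); no bulk family.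
Centres in `closedBall x (3R)` only (the completions agree with the plane on `closedBall x (6R)` only);   a SECOND ACTUAL GATE round the first (RULING 9bis). -/
def pvxPins (x : ℂ) (R : ℝ) (m : ℕ) (ω : PVSample) (P : PvbRim) : Set (PvbPin τ) :=
  {s | ‖s.ctr - x‖ ≤ 3 * R ∧ (∃ p : ℤ × ℤ, s.ctr = l9Pt (pvlmH m) p) ∧ ∃ (𝔖 : PvwSt (pvxT ω)) (j : ℕ), PvxAt 𝔓 m ω s.ctr s.typ 𝔖 ∧
    PvxPinOf 𝔖 𝔓.num (pvlmH m) ((𝔓.ty s.typ).cp (pvlmH m) s.ctr) ((𝔓.ty s.typ).cm (pvlmH m) s.ctr) (𝔓.box m s.ctr s.typ) P j ∧ s.idx = j + 𝔖.ip ∧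
    ∃ 𝔖₂ : PvwSt (pvxT ω), 𝔖₂.Gate (pvxPos ω) (pvlmH m) s.ctr (𝔓.ty2 s.typ) (pvxCol ω (𝔓.col s.typ))}

/-! ## 5. patterns, actual data, fit -/

/-- bound on the length of the words of the patterns of a ball of radius `R` -/
noncomputable def pvxLen (c R : ℝ) (m : ℕ) : ℕ := ⌈(12 * R / pvlmDel c m) ^ 2⌉₊

/-- bound on the coordinates of the cells of the hulls -/
noncomputable def pvxBnd (c : ℝ) (x : ℂ) (R : ℝ) (m : ℕ) : ℕ := ⌈(‖x‖ + 6 * R) / pvlmDel c m⌉₊ + 1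

/-- the grid centre `y⁻(s)` of the tip cell of the entrance stub of the pin `s` of a pattern -/
noncomputable def pvxYs (m : ℕ) (p : PvtsPat τ) : ℂ := (𝔓.ty p.ts).cm (pvlmH m) p.zs

/-- the grid centre `y⁺(t)` of the tip cell of the exit stub of the pin `t` of a pattern -/
noncomputable def pvxYt (m : ℕ) (p : PvtsPat τ) : ℂ := (𝔓.ty p.tt).cp (pvlmH m) p.zt

/-- the patterns of level `m` in the patch `(x,R)`: the clauses of v3 -/
def pvxPatSet0 (x : ℂ) (R : ℝ) (m : ℕ) : Set (PvxIx τ) :=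
  {π | (𝔓.Γ m).Ok π.p ∧ (∃ p : ℤ × ℤ, π.p.zs = l9Pt (pvlmH m) p) ∧ (∃ p : ℤ × ℤ, π.p.zt = l9Pt (pvlmH m) p) ∧ ‖π.p.zs - x‖ ≤ 3 * R ∧ ‖π.p.zt - x‖ ≤ 3 * R ∧
    𝔓.col π.p.ts = 𝔓.col π.p.tt ∧ π.p.l.length ≤ pvxLen c R m ∧
    (∀ q ∈ π.Zs, q.1.natAbs ≤ pvxBnd c x R m ∧ q.2.natAbs ≤ pvxBnd c x R m) ∧ ∀ q ∈ π.Zt, q.1.natAbs ≤ pvxBnd c x R m ∧ q.2.natAbs ≤ pvxBnd c x R m}

/-- **THE PATTERNS OF LEVEL `m` IN THE PATCH `(x,R)`** = the clauses of v3 + (b1) the largest boxes of the two pins are disjoint (63) + (b2) they are small against the patch (60) + (b3) the index predicates (209)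
+ (b5) [v4.1, RULING 20 (1) of 234] the regions of the pattern lie in the OPEN ball `B(x, 5R)`.      Every clause reads the INDEX only. -/
def pvxPatSet (x : ℂ) (R : ℝ) (m : ℕ) : Set (PvxIx τ) :=
  {π | π ∈ pvxPatSet0 𝔓 x R m ∧
    2 * (pvwRad 𝔓.num (pvlmH m) (𝔓.ty π.p.ts) 𝔓.num.K + pvwRad 𝔓.num (pvlmH m) (𝔓.ty π.p.tt) 𝔓.num.K) < ‖π.p.zs - π.p.zt‖ ∧
    2 * pvwRad 𝔓.num (pvlmH m) (𝔓.ty π.p.ts) 𝔓.num.K + pvlmH m ≤ R ∧ 2 * pvwRad 𝔓.num (pvlmH m) (𝔓.ty π.p.tt) 𝔓.num.K + pvlmH m ≤ R ∧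
    PvfeIx (𝔓.Γ m) 𝔓.ty 𝔓.num (pvlmH m) π.p (↑π.Zs ∪ ↑π.Zt) ∧
    (𝔓.reg m π).Yreg ∪ (𝔓.reg m π).Ycol ⊆ Metric.ball x (5 * R)}

/-- **`PvwDat.Actual` IN ENCODED FORM**: the colouring of the sample lies in `Cyl(D)`, both states are pins of `P`, `g₀` is the arc `g⁺(s) → g⁻(t)` of `P` (`j` = the place of `g⁻(s)` on `P`) -/
structure PvxActual {ω : PVSample} (𝔇 : PvwDat (pvxT ω)) (N : PvwNum) (h : ℝ) (π : PvwPat) (b : Bool) (P : PvbRim) (j : ℕ) : Prop where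
  cyl : pvxCol ω b ∈ 𝔇.Cyl
  pin_s : PvxPinOf 𝔇.s N h (π.ts.cp h π.zs) (π.ts.cm h π.zs) (pvwSq π.zs (pvwRad N h π.ts N.K)) P j
  arc : ∀ i, i ≤ 𝔇.g.n → P.v (j + 𝔇.s.inn.n + i) = pvxPos ω (𝔇.g.v i)
  pin_t : PvxPinOf 𝔇.t N h (π.tt.cp h π.zt) (π.tt.cm h π.zt) (pvwSq π.zt (pvwRad N h π.tt N.K)) P (j + 𝔇.s.inn.n + 𝔇.g.n)

/-- the `δ`-hull of a frozen set with its mouth (`tip` = the grid centre of the tip cell) -/
def pvxHull {ω : PVSample} (δ : ℝ) (F : Set ↥(pvxY ω)) (tip : ℂ) (r : ℝ) : Set (ℤ × ℤ) := pvtCells δ (pvxPos ω '' F ∪ Metric.closedBall tip r)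

/-- **THE ARC `s → t` OF THE ENCODED RIM `P` FITS THE PATTERN `π`** -/
def pvxFit (x : ℂ) (R : ℝ) (m : ℕ) (ω : PVSample) (P : PvbRim) (s t : PvbPin τ) (π : PvxIx τ) : Prop :=
  (s.ctr = π.p.zs ∧ s.typ = π.p.ts) ∧ (t.ctr = π.p.zt ∧ t.typ = π.p.tt) ∧ ω ∈ pvxU 𝔓 m s.ctr s.typ ∧ ω ∈ pvxU 𝔓 m t.ctr t.typ ∧
  ∃ (𝔇 : PvwDat (pvxT ω)) (j : ℕ), 𝔇.Ok (pvxPos ω) 𝔓.num (pvlmH m) (𝔓.reg m π) ∧ PvxActual 𝔇 𝔓.num (pvlmH m) (𝔓.reg m π) (𝔓.col π.p.ts) P j ∧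
    PvxAt 𝔓 m ω π.p.zs π.p.ts 𝔇.s ∧ PvxAt 𝔓 m ω π.p.zt π.p.tt 𝔇.t ∧
    s.idx = j + 𝔇.s.ip ∧ t.idx = j + 𝔇.s.inn.n + 𝔇.g.n + 𝔇.t.ip ∧
    (∀ k, j ≤ k → k ≤ j + 𝔇.s.inn.n + 𝔇.g.n + 𝔇.t.inn.n → ‖P.v k - x‖ ≤ 5 * R) ∧
    (π.Zs : Set (ℤ × ℤ)) = pvxHull (pvlmDel c m) 𝔇.s.fzIn (pvxYs 𝔓 m π.p) (𝔓.num.rho * pvlmH m) ∧
    (π.Zt : Set (ℤ × ℤ)) = pvxHull (pvlmDel c m) 𝔇.t.fzOut (pvxYt 𝔓 m π.p) (𝔓.num.rho * pvlmH m)

end model

/-! ## 6. the statements of the roofs (the fields of `PvhbLoc`, `PvhbNum` at the data of record) -/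

section roofs

open MeasureTheory Filter Topology
open scoped ENNReal

variable {τ : Type} {c : ℝ} (𝔓 : PvxPar τ c)

/-- **(S1) PINS** = field `pinsOK`      [roof 12, `Exit/Pins.lean`; chapter C: 273 281 212 101 238 13] -/
def PvxPinsOK (x : ℂ) (R : ℝ) : Prop :=
  PvhbOrd (fun m ε => ((pvhbUp ε).P {q | ¬ ∀ P ∈ pvhbAll x R (pvMerge q),
    (∀ s ∈ pvxPins 𝔓 x R m (pvMerge q) P, PvbIsPin 𝔓.𝔐 (pvlmH m) P s ∧ ∃ p : ℤ × ℤ, s.ctr = l9Pt (pvlmH m) p) ∧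
    (∀ i i', i ≤ i' → i' ≤ P.len → (∀ k, i ≤ k → k ≤ i' → ‖P.v k - x‖ ≤ 2 * R) → pvlmR c m ≤ ‖P.v i' - P.v i‖ → ∃ s ∈ pvxPins 𝔓 x R m (pvMerge q) P, i ≤ s.idx ∧ s.idx ≤ i')}).toReal)

/-- **(S2) COVER** = field `cover`      [roof 143, `Exit/Cover.lean`; TR20: 240 236; deterministic fit, RULINGS 9, 9bis: 62 209 211 118 151] -/
def PvxCover (x : ℂ) (R : ℝ) : Prop :=
  PvhbOrd (fun m ε => ((pvhbUp ε).P {q | ¬ ∀ P ∈ pvhbAll x R (pvMerge q), ∀ s ∈ pvxPins 𝔓 x R m (pvMerge q) P, ∀ t ∈ pvxPins 𝔓 x R m (pvMerge q) P, s.idx < t.idx →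
    (∀ k, s.idx ≤ k → k ≤ t.idx → ‖P.v k - x‖ ≤ 2 * R) → R / 3 ≤ ‖s.ctr - t.ctr‖ → ∃ π ∈ pvxPatSet 𝔓 x R m, pvxFit 𝔓 x R m (pvMerge q) P s t π}).toReal)

/-- **(S3) THE ANALYTIC DATA**: the numbers `W kin0 A CA` of `PvhbNum`, the random variables `kout kin ke` of `PvhbLocU` and the fields which speak of them.      GLOBAL: no ball in the data.
v0: ONE record.   v1: `kout kin ke W kin0` are DEFINED ONCE (RULING 10bis: 161 + 193, `Tr/InstE.lean`), then every field is a roof of its own: numbers 34 259 52 (`Exit/TrNum.lean`), `n1` 170 274 (`Exit/N1.lean`), `cyc1 thick` 129 58 103 223. -/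
structure PvxAna where
  W : ℕ → ℝ → ℂ → PvtW
  kin0 : ℕ → ℝ → ℂ → ℂ
  A : ℕ → ℝ → ℂ
  CA : ℝ
  A_bdd : ∀ m, ∀ᶠ ε in 𝓝[>] (0 : ℝ), ‖A m ε‖ ≤ CA
  cell_a : ∀ m, ∀ᶠ ε in 𝓝[>] (0 : ℝ), ∀ a : ℂ, (𝔓.Γ m).a (W m ε a) = A m ε - a
  rel_lim : ∀ m (a : ℂ), Tendsto (fun ε => (W m ε a).rel) (𝓝[>] (0 : ℝ)) (𝓝 0)
  /-- arguments `m ε a z t ω` -/
  kout : ℕ → ℝ → ℂ → ℂ → τ → PVSample → ℂ
  kin : ℕ → ℝ → ℂ → ℂ → τ → PVSample → ℂ
  ke : ℕ → ℝ → ℂ → ℂ → τ → PVSample → ℂ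
  n1 : ∀ (x : ℂ) (R : ℝ), 0 < R → ∀ (a : ℂ) (m : ℕ), ∀ π ∈ pvxPatSet 𝔓 x R m, ∀ u : ℝ, 0 < u →
    Tendsto (fun ε => ((pvhbUp ε).P {q | ∃ P ∈ pvhbAll x R (pvMerge q), ∃ s ∈ pvxPins 𝔓 x R m (pvMerge q) P, ∃ t ∈ pvxPins 𝔓 x R m (pvMerge q) P, pvxFit 𝔓 x R m (pvMerge q) P s t π ∧
      u < ‖pvbArcI 𝔓.𝔐 (pvlmH m) P (fun k => P.xQ k - a * P.xV k) s t +
        (kout m ε a t.ctr t.typ (pvMerge q) + pvtSum (W m ε a) ((𝔓.Γ m).dout π.p.tt) π.p.l + kin m ε a s.ctr s.typ (pvMerge q))‖}).toReal) (𝓝[>] (0 : ℝ)) (𝓝 0)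
  cyc1 : ∀ (a : ℂ) (m : ℕ) (p : ℤ × ℤ) (t : τ), Tendsto (fun ε => (pvhbUp ε).E ((pvMerge ⁻¹' pvxU 𝔓 m (l9Pt (pvlmH m) p) t).indicator fun q =>
    ‖kout m ε a (l9Pt (pvlmH m) p) t (pvMerge q) + pvtSum (W m ε a) ((𝔓.Γ m).dout t) ((𝔓.Γ m).l1 t) + kin0 m ε a + ke m ε a (l9Pt (pvlmH m) p) t (pvMerge q)‖ₑ ^ 2)) (𝓝[>] (0 : ℝ)) (𝓝 0)
  Ce : ℝ
  thick : ∀ (a : ℂ), ‖a‖ ≤ CA → ∀ (m : ℕ) (p : ℤ × ℤ) (t : τ), ∀ᶠ ε in 𝓝[>] (0 : ℝ),
    (pvhbUp ε).E ((pvMerge ⁻¹' pvxU 𝔓 m (l9Pt (pvlmH m) p) t).indicator fun q => ‖ke m ε a (l9Pt (pvlmH m) p) t (pvMerge q)‖ₑ ^ 2) ≤ ENNReal.ofReal (Ce * pvlmH m ^ 2)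

end roofs

theorem pvx_model_eqns_cite : True := by
  have := @PvxPinsOK.eq_1; have := @PvxCover.eq_1
  have := @pvxY.eq_1; have := @pvxT.eq_1; have := @pvxPos.eq_1; have := @pvxCol.eq_1; have := @pvxPl.eq_1; have := @PvxPar.box.eq_1; have := @PvxPar.upd.eq_1
  have := @pvxU.eq_1; have := @pvxPins.eq_1; have := @pvxPatSet.eq_1; have := @pvxPatSet0.eq_1; have := @pvxYs.eq_1; have := @pvxYt.eq_1; have := @pvxLen.eq_1; have := @pvxBnd.eq_1; have := @pvxHull.eq_1; have := @pvxFit.eq_1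
  trivial

end Claimed.Agent.R289
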