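import Claimed.Agent.R289.Defs.TrModel

/-!
# Row 289 (S0537), THE WALL, Defs/Three : THE EVENT OF RECORD OF `cover` = THREE PASSAGES OF WALLS, AND THE ARM EXPORT WHICH BOUNDS IT      (owner helper143, pen of `Exit/Cover.lean`; prefix `pvxv`, `Pvxv`)      CAPOK

ONE definition for the three parties of the field `cover` of `PvhbLocU` (RULING 9 (4)(6) of 234; `W2_211.md` v2, (3P) (ARM)):
* FIT-DET (pen 209 `Tr/FitE.lean`: `pvfh_main`; 246 211 49 20 217 240):   no corridor  ⟹  `PvxvThree` at some centre `y ∈ B(x,3R)`, radii `(k₁ δ_m, k₂ h_m)`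
* ARM (222; 84 75 249 237 186):   `∃ c > 0, PvxvSix c`
* ROOF (143 `Exit/Cover.lean`):   the glue.

`PvxvThree T pos σ y s S`:  three pieces of strands of the colouring `σ` (positions = darts black → white, `pvasIt` of `Arm/Strand`), PAIRWISE DISJOINT, each FROM a position whose black end is at distance `≥ S` of `y` TO a position whose black end is within `s` of `y`.
  LOCAL (cut every piece at its last far position: it lives in `B(y, S + mesh)`), no rim, no closed wall, no cyclic order, no frame.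
  ⟸ `ThreePass(y; r₁, S')` of 211 (closed wall, cyclic times `t₁ < s₁ < t₂ < s₂ < t₃ < s₃`): the pieces `s₃ → t₁`, `s₁ → t₂`, `s₂ → t₃` (disjoint: a closed strand is injective on a period), `s = r₁ + μ`, `S = S' - μ` on the mesh event.
  ⟹ three runs `PvatRun T c0.Left c1.Left σ xᵢ nᵢ` with DIFFERENT entrances (hypothesis of `pvat_cfg6_three`, 75) for all cycles `c1.Inside c0` with `{‖pos v - y‖ ≤ s} ⊆ Int c1.Left`, `VOf c0.Left ⊆ {‖pos v - y‖ < S}`:
     `xᵢ` = the position after the last position of the piece off `c0.Left` before its first position in `c1.Left`; equal entrances would lie on two pieces.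
`pvxvEv x R s S`:  the event on the two-level space, plane map of record `pvxT`, BOTH colour conventions, SOME centre in the closed ball `B(x,3R)`.
`PvxvSix c`:  the export.      QUENCHED UNION BOUND (222): no measurability, no covariance, no stationarity; `(R/S)²` regions, in each the quenched count `∑_b P(CONFIG6_b) ≤ C (s/S)^c` on the frame event.
-/

set_option autoImplicit false

namespace Claimed.Agent.R289

open Filter Topology Claims.C0465

/-- **THREE PASSAGES** of walls of the colouring `σ` at `(y; s, S)` -/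
def PvxvThree {V D : Type} (T : PvMap V D) (pos : V → ℂ) (σ : V → Bool) (y : ℂ) (s S : ℝ) : Prop :=
  ∃ (d : Fin 3 → D) (n : Fin 3 → ℕ),
    (∀ i, pvasBW T σ (d i) ∧ S ≤ ‖pos (T.src (d i)) - y‖ ∧ ‖pos (T.src (pvasIt T σ (d i) (n i))) - y‖ ≤ s) ∧
    ∀ i j, i ≠ j → ∀ k, k ≤ n i → ∀ l, l ≤ n j → pvasIt T σ (d i) k ≠ pvasIt T σ (d j) l

/-- three passages in the Delaunay plane of the sample `ω`, at some centre of the closed ball `B(x,3R)`, for one of the two colour conventions -/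
def PvxvBad (x : ℂ) (R s S : ℝ) (ω : PVSample) : Prop :=
  ∃ (b : Bool) (y : ℂ), ‖y - x‖ ≤ 3 * R ∧ PvxvThree (pvxT ω) (pvxPos ω) (pvxCol ω b) y s S

/-- the event on the two-level space -/
def pvxvEv (x : ℂ) (R s S : ℝ) : Set (PvGeoT × PvColT) := {q | PvxvBad x R s S (pvMerge q)}

/-- **THE ARM EXPORT FOR `cover`**, exponent `c` -/
def PvxvSix (c : ℝ) : Prop :=
  ∃ C : ℝ, ∀ (x : ℂ) (R s S : ℝ), 0 < s → s ≤ S → S ≤ R → ∀ᶠ ε in 𝓝[>] (0 : ℝ), ((pvhbUp ε).P (pvxvEv x R s S)).toReal ≤ C * (R / S) ^ 2 * (s / S) ^ c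

/-! ## the level constants, the good event, FIT-DET at the real model, the field in U-form -/

/-- inner radius of the excluded passages at level `m`      (seams of 120 292 270 91 209: the kits give near radii `8 r + μ`, `16 r + μ`, `r ≤ 25 δ`; 209 reads `64 δ`; `4096 δ` covers all of them by `PvxvBad.mono`; free for ARM) -/
noncomputable def pvxvS1 (c : ℝ) (m : ℕ) : ℝ := 4096 * pvlmDel c m

/-- outer radius of the excluded passages at level `m`, `ρ` = mouth radius      (209 reads `ρ h / 8`, 91 asks `ρ h / 64`: the smaller covers both by `PvxvBad.mono`) -/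
noncomputable def pvxvS2 (ρ : ℝ) (m : ℕ) : ℝ := ρ * pvlmH m / 64

/-- the mesh allowed at level `m` -/
noncomputable def pvxvMu (c : ℝ) (m : ℕ) : ℝ := pvlmDel c m / 1000

/-- **the good samples**: the Delaunay plane exists, all the triangles which touch `B(x,6R)` have sides `≤ μ` -/
def PvxvGood (x : ℂ) (R μ : ℝ) (ω : PVSample) : Prop := DelGood (pvxY ω) ∧ L9Fine (pvxY ω) (Metric.closedBall x (6 * R)) μ

section fit

variable {τ : Type} {c : ℝ} (𝔓 : PvxPar τ c)

/-- every long pinned arc of every reaching rim of every completion of `ω` fits a pattern of level `m` -/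
def PvxvAll (x : ℂ) (R : ℝ) (m : ℕ) (ω : PVSample) : Prop :=
  ∀ P ∈ pvhbAll x R ω, ∀ s ∈ pvxPins 𝔓 x R m ω P, ∀ t ∈ pvxPins 𝔓 x R m ω P, s.idx < t.idx →
    (∀ k, s.idx ≤ k → k ≤ t.idx → ‖P.v k - x‖ ≤ 2 * R) → R / 3 ≤ ‖s.ctr - t.ctr‖ → ∃ π ∈ pvxPatSet 𝔓 x R m, pvxFit 𝔓 x R m ω P s t π

/-- **FIT-DET AT THE REAL MODEL**, level `m` (DETERMINISTIC: no probability): good sample + no three passages `(4096 δ_m, ρ h_m / 64)` at any centre of `B(x,3R)` ⟹ everything fits -/
def PvxvFitAt (x : ℂ) (R : ℝ) (m : ℕ) : Prop :=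
  ∀ ω : PVSample, PvxvGood x R (pvxvMu c m) ω → ¬ PvxvBad x R (pvxvS1 c m) (pvxvS2 𝔓.num.rho m) ω → PvxvAll 𝔓 x R m ω

/-- `PvxCover` of `Defs/TrModel.lean` (187) in the words of this file -/
theorem pvxv_cover_iff (x : ℂ) (R : ℝ) : PvxCover 𝔓 x R ↔ PvhbOrd (fun m ε => ((pvhbUp ε).P {q | ¬ PvxvAll 𝔓 x R m (pvMerge q)}).toReal) := Iff.rfl

end fit

theorem pvxv_eqns_cite : True := by
  have := @PvxvThree.eq_1; have := @PvxvBad.eq_1; have := @pvxvEv.eq_1; have := @PvxvSix.eq_1
  have := @pvxvS1.eq_1; have := @pvxvS2.eq_1; have := @pvxvMu.eq_1; have := @PvxvGood.eq_1; have := @PvxvAll.eq_1; have := @PvxvFitAt.eq_1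
  trivial

/-- monotone in the two radii -/
theorem PvxvThree.mono {V D : Type} {T : PvMap V D} {pos : V → ℂ} {σ : V → Bool} {y : ℂ} {s s' S S' : ℝ} (h : PvxvThree T pos σ y s S) (hs : s ≤ s') (hS : S' ≤ S) :
    PvxvThree T pos σ y s' S' := by
  obtain ⟨d, n, h1, h2⟩ := h
  exact ⟨d, n, fun i => ⟨(h1 i).1, hS.trans (h1 i).2.1, (h1 i).2.2.trans hs⟩, h2⟩

theorem PvxvBad.mono {x : ℂ} {R s s' S S' : ℝ} {ω : PVSample} (h : PvxvBad x R s S ω) (hs : s ≤ s') (hS : S' ≤ S) : PvxvBad x R s' S' ω := by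
  obtain ⟨b, y, hy, h3⟩ := h
  exact ⟨b, y, hy, h3.mono hs hS⟩

/-- the export is monotone in the exponent -/
theorem PvxvSix.mono {c c' : ℝ} (h : PvxvSix c) (hc : c' ≤ c) : PvxvSix c' := by
  obtain ⟨C, hC⟩ := h
  refine ⟨max C 0, fun x R s S hs hsS hSR => (hC x R s S hs hsS hSR).mono fun ε hε => hε.trans ?_⟩
  have hS : 0 < S := lt_of_lt_of_le hs hsS
  have h1 : (s / S) ^ c ≤ (s / S) ^ c' := Real.rpow_le_rpow_of_exponent_ge (div_pos hs hS) ((div_le_one hS).2 hsS) hc
  have h2 : 0 ≤ (s / S) ^ c := Real.rpow_nonneg (div_pos hs hS).le _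
  have h3 : 0 ≤ (R / S) ^ 2 := by positivity
  calc C * (R / S) ^ 2 * (s / S) ^ c ≤ max C 0 * (R / S) ^ 2 * (s / S) ^ c :=
        mul_le_mul_of_nonneg_right (mul_le_mul_of_nonneg_right (le_max_left _ _) h3) h2
    _ ≤ max C 0 * (R / S) ^ 2 * (s / S) ^ c' := mul_le_mul_of_nonneg_left h1 (mul_nonneg (le_max_right _ _) h3)

end Claimed.Agent.R289
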