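import Claimed.Agent.R289.Obs.Abs
import Claimed.Agent.R289.Defs.Top
import Claimed.Agent.R289.PppQ

/-!
# Row 289 (S0537), Defs/Nice : THE INSTANCE CONTRACT OF SEC. 8 AND THE TOP GLUE OF THE UNIT OBS      (helper258, order of helper111 (head OBS) 08:42Z; prefix `pvon_`, defs `Pvon*`)

    PvTransport  ⟹(Obs/Inst: 111, 174)⟹  PvonInst  ⟹(`pvon_nice`, HERE, 0 sorry)⟹  PvNice

* `PvonQuad D d ψ x ρ εs a b c`   the contract for ONE analytic quad with marks `ψ a = 0`, `ψ b = x`, `ψ c = 1`, ONE tolerance `ρ`, ONE sequence `εs → 0+`: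
      a system `S : PvoSys PvGeoT` on the LABELLED GEOMETRY (`PppQ.lean`; the quenched observable is a function of the geometry; NO coins in the sample space), `S.P k = pvGeo (εs k)`,
      with `PvoArm`, `PvoCRAll` (or its conjugate form; along subsequences of subsequences, form of `pvo_exit`), `PvoBd` (used OPAQUELY: the glue survives a retyping of their fields),
      and the exit events: `E k : Set PVSample` MEASURABLE, inside the black vertex crossing event of `PvNice`, `pc k ≤ (pvLaw (εs k) (E k)).toReal + r k`, `r k → 0`.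
* `PvonInst`   the contract for all analytic quads, marks, tolerances, sequences.
* `pvon_nice : PvonInst → PvNice`   (contradiction, a sequence of bad `ε`, `pvo_exit`).
-/

set_option autoImplicit false

namespace Claimed.Agent.R289

open MeasureTheory Filter Topology Set Complex
open Claims Claims.C0465
open scoped ContDiff ENNReal

/-- **the instance contract of Sec. 8** for ONE analytic quad with its marks, ONE tolerance and ONE sequence `εs → 0+` -/
def PvonQuad (D : Set ℂ) (d : ℂ) (ψ : ℂ → ℂ) (x ρ : ℝ) (εs : ℕ → ℝ) (a b c : ℂ) : Prop :=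
  ∃ (S : PvoSys PvGeoT) (κ w0 w1 : ℂ) (pc r : ℕ → ℝ) (E : ℕ → Set PVSample),
    (∀ k, S.P k = pvGeo (εs k)) ∧ κ ≠ 0 ∧ w0 ≠ w1 ∧
    PvoArm S (closure D \ {a, c, d}) ∧
    (∀ ns : ℕ → ℕ, Tendsto ns atTop atTop → ∃ ms : ℕ → ℕ, StrictMono ms ∧
      (PvoCRAll ((S.sub ns).sub ms) κ D ∨ PvoCRAll ((S.sub ns).sub ms).conj κ D)) ∧
    PvoBd S D d ψ w0 w1 b pc ∧
    (∀ k, MeasurableSet (E k)) ∧
    (∀ k, E k ⊆ {o | PvVC (pvConf o) (Metric.thickening ρ D) (Metric.thickening ρ (pvArcL D d ψ x)) (Metric.thickening ρ (pvArcR D d ψ))}) ∧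
    Tendsto r atTop (𝓝 0) ∧ ∀ k, pc k ≤ (pvLaw (εs k) (E k)).toReal + r k

/-- **the instance contract of Sec. 8** -/
def PvonInst : Prop :=
  ∀ (D : Set ℂ) (d : ℂ) (ψ : ℂ → ℂ), PvAn D d ψ → ∀ x : ℝ, 0 < x → x < 1 → ∀ ρ : ℝ, 0 < ρ →
    ∀ εs : ℕ → ℝ, (∀ n, 0 < εs n) → Tendsto εs atTop (𝓝 0) →
      ∀ a b c : ℂ, a ∈ frontier D → b ∈ frontier D → c ∈ frontier D → a ≠ d → b ≠ d → c ≠ d → ψ a = 0 → ψ b = x → ψ c = 1 →
        PvonQuad D d ψ x ρ εs a b c

theorem pvon_eqns_cite : True := by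
  have := @PvonQuad.eq_1; have := @PvonInst.eq_1
  trivial

/-- the marks of a chart -/
theorem pvon_mark {D : Set ℂ} {d : ℂ} {ψ : ℂ → ℂ} (h : PvChart D d ψ) (t : ℝ) : ∃ z ∈ frontier D, z ≠ d ∧ ψ z = t := by
  have ht : (t : ℂ) ∈ ψ '' (frontier D \ {d}) := by
    rw [h.imgB]; simp
  obtain ⟨z, ⟨hz, hzd⟩, hψ⟩ := ht
  exact ⟨z, hz, hzd, hψ⟩

/-- **TOP GLUE of the unit OBS** -/
theorem pvon_nice (hI : PvonInst) : PvNice := by
  intro D d ψ hA x hx0 hx1 ρ η hρ hη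
  by_contra hcon
  rw [Filter.not_eventually] at hcon
  obtain ⟨εs, hεs, hbad⟩ := Filter.exists_seq_forall_of_frequently hcon
  have hε0 : Tendsto εs atTop (𝓝 0) := hεs.mono_right nhdsWithin_le_nhds
  have hεpos : ∀ᶠ n in atTop, 0 < εs n := by
    have := hεs.eventually (eventually_mem_nhdsWithin)
    simpa using this
  obtain ⟨N, hN⟩ := eventually_atTop.1 hεpos
  set εs' : ℕ → ℝ := fun n => εs (n + N) with hεs'
  have hε0' : Tendsto εs' atTop (𝓝 0) := hε0.comp (tendsto_add_atTop_nat N)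
  obtain ⟨a, ha, had, hψa⟩ := pvon_mark hA.toPvChart 0
  obtain ⟨b, hb, hbd, hψb⟩ := pvon_mark hA.toPvChart x
  obtain ⟨c, hc, hcd, hψc⟩ := pvon_mark hA.toPvChart 1
  have hψa' : ψ a = 0 := by simpa using hψa
  have hψc' : ψ c = 1 := by simpa using hψc
  obtain ⟨S, κ, w0, w1, pc, r, E, -, hκ, hw, hArm, hCR, hBd, hEm, hEs, hr, hpc⟩ :=
    hI D d ψ hA x hx0 hx1 ρ hρ εs' (fun n => hN _ (Nat.le_add_left N n)) hε0' a b c ha hb hc had hbd hcd hψa' hψb hψc'
  have hre : (ψ b).re = x := by rw [hψb]; simp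
  have hlim : Tendsto pc atTop (𝓝 (cardyF (ψ b).re)) :=
    pvo_exit hA.toPvChart ha hb hc had hbd hcd hψa' hψc' (by rw [hre]; exact ⟨hx0, hx1⟩) S hκ hw hArm hCR hBd
  rw [hre] at hlim
  have h1 : ∀ᶠ k in atTop, cardyF x - η / 2 < pc k := hlim.eventually (lt_mem_nhds (by linarith))
  have h2 : ∀ᶠ k in atTop, r k < η / 2 := hr.eventually (gt_mem_nhds (by linarith))
  obtain ⟨k, hk1, hk2⟩ := (h1.and h2).exists
  refine hbad (k + N) ⟨E k, hEm k, hEs k, ?_⟩
  have h3 : cardyF x - η ≤ (pvLaw (εs' k) (E k)).toReal := by linarith [hpc k]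
  exact ENNReal.ofReal_le_of_le_toReal h3

end Claimed.Agent.R289
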