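-- KEEP
import Claimed.Agent.R289.Defs.TrModel
import Claimed.Agent.R289.Defs.Three
import Claimed.Agent.R289.Defs.FitReg

/-!
# Row 289 (S0537), THE WALL, Defs/FitRec : THE RECORDS OF THE DETERMINISTIC FIT AT THE REAL MAP      (helper209; prefix `pvfh`, `Pvfh`; cut of record of (K3) of the roof `cover`: ruling of 143, 11:00Z)

DEFINITIONS ONLY, so that the files of the leaves (`Tr/BuCover` 240, `Tr/FitL2` 246 56, `Tr/CorE` 270, ...) and the glue `Tr/FitE` never import each other in a circle: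
a leaf file imports THIS file and proves `∀ᶠ m, PvfhArcAt 𝔓 x R m` (L1) or `∀ᶠ m, PvfhCorAt 𝔓 x R m` (L2);   `Tr/FitE` imports the leaf files.
* `PvfhWf 𝔓`      what FIT asks from the parameters: regions of record `pvfeRegAt`, doors of record `PvfeDoors` (`Defs/FitReg` sec. 5), `b ≤ 2 b₂`
* `PvfhArc`       the arc `s → t` of the encoded rim `P`, read in the plane map of the sample = OUTPUT of (L1), INPUT of (L2)-(L4)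
* `pvfhP`, `pvfhZ`      the spine index of the pair with the word `l`; the union of the two hulls of the datum
* `PvfhCor`       OUTPUT of (L2): door to door, in `B(x,5R)`, tube off `g₀`, index predicates of `PvfeIx` (simple, NR, D20 = `PvfeAdm`, strong MB = `PvfeLk`) at the hulls
EVENTS: names of 143 (`Defs/Three`): `PvxvGood x R (pvxvMu c m) ω` (Delaunay plane + mesh `δ/1000` on `B(x,6R)`), `PvxvBad x R (pvxvS1 c m) (pvxvS2 ρ m) ω` (three passages `(4096 δ, ρ h / 64)`).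
-/

set_option autoImplicit false

namespace Claimed.Agent.R289

open Set Metric Filter Claims.C0465

variable {τ : Type} {c : ℝ}

/-- **what FIT asks from the parameters** -/
structure PvfhWf (𝔓 : PvxPar τ c) : Prop where
  /-- the regions are the regions of record -/
  reg_eq : ∀ m π, 𝔓.reg m π = pvfeRegAt (𝔓.Γ m) 𝔓.ty 𝔓.cp 𝔓.cm 𝔓.num (pvlmH m) π.p
  /-- the doors are the doors of record -/
  doors : ∀ m, PvfeDoors (𝔓.Γ m) 𝔓.ty 𝔓.num (pvlmH m)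
  /-- the core disc lies in the boxes -/
  b_b2 : ∀ t, (𝔓.ty t).b ≤ 2 * (𝔓.ty t).b2
  /-- the core disc is far from the boundary of the boxes (56, (G) of `Tr/FitL2`: the closed disc `closedBall z (b h)` misses the mouths;   at `pvxParOf`: `b₁ + 2 ≤ a₂ < b₂`) -/
  b_gap : ∀ t, (𝔓.ty t).b + 2 ≤ 2 * (𝔓.ty t).b2
  /-- the second gate lies in the boxes (179, core-free of (S) of `Tr/FitL2`: `closedBall z ((ty2 t).b h) ⊆` the box of the level;   at `pvxParOf`: `b₂ ≤ 2 b₂`) -/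
  box2 : ∀ t, (𝔓.ty2 t).b ≤ 2 * (𝔓.ty t).b2

/-- **the arc `s → t` of the encoded rim `P`, read in the plane map of the sample** (`j` = the place of `g⁻(s)` on `P`) -/
structure PvfhArc (𝔓 : PvxPar τ c) (x : ℂ) (R : ℝ) (m : ℕ) (ω : PVSample) (P : PvbRim) (s t : PvbPin τ) (𝔇 : PvwDat (pvxT ω)) (j : ℕ) : Prop where
  at_s : PvxAt 𝔓 m ω s.ctr s.typ 𝔇.s
  at_t : PvxAt 𝔓 m ω t.ctr t.typ 𝔇.t
  col_eq : 𝔓.col s.typ = 𝔓.col t.typ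
  col : 𝔇.col = pvxCol ω (𝔓.col s.typ)
  pin_s : PvxPinOf 𝔇.s 𝔓.num (pvlmH m) ((𝔓.ty s.typ).cp (pvlmH m) s.ctr) ((𝔓.ty s.typ).cm (pvlmH m) s.ctr) (𝔓.box m s.ctr s.typ) P j
  pin_t : PvxPinOf 𝔇.t 𝔓.num (pvlmH m) ((𝔓.ty t.typ).cp (pvlmH m) t.ctr) ((𝔓.ty t.typ).cm (pvlmH m) t.ctr) (𝔓.box m t.ctr t.typ) P (j + 𝔇.s.inn.n + 𝔇.g.n)
  idx_s : s.idx = j + 𝔇.s.ip
  idx_t : t.idx = j + 𝔇.s.inn.n + 𝔇.g.n + 𝔇.t.ip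
  arc : ∀ i, i ≤ 𝔇.g.n → P.v (j + 𝔇.s.inn.n + i) = pvxPos ω (𝔇.g.v i)
  pos_n : 0 < 𝔇.g.n
  in2R : ∀ i, i ≤ 𝔇.g.n → ‖pvxPos ω (𝔇.g.v i) - x‖ ≤ 2 * R
  black : ∀ v ∈ 𝔇.g.verts, pvxCol ω (𝔓.col s.typ) v = true
  white : ∀ v ∈ 𝔇.apx, pvxCol ω (𝔓.col s.typ) v = false
  /-- outside the two gates -/
  out : ∀ v ∈ 𝔇.g.inner, v ∉ 𝔇.s.ins ∧ v ∉ 𝔇.t.ins
  /-- the black ends of the tip darts lie in the tip cells -/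
  tip_s : pvxPos ω ((pvxT ω).src (𝔇.s.em 𝔇.s.nm)) ∈ pvxPl s.ctr (pvlmH m) (𝔓.cm s.typ)
  tip_t : pvxPos ω ((pvxT ω).src (𝔇.t.ep 𝔇.t.np)) ∈ pvxPl t.ctr (pvlmH m) (𝔓.cp t.typ)
  /-- the arc misses the two mouths of record (`2 ρ h` round the grid centres) -/
  far_s : ∀ i, i ≤ 𝔇.g.n → 2 * 𝔓.num.rho * pvlmH m < ‖pvxPos ω (𝔇.g.v i) - (𝔓.ty s.typ).cm (pvlmH m) s.ctr‖
  far_t : ∀ i, i ≤ 𝔇.g.n → 2 * 𝔓.num.rho * pvlmH m < ‖pvxPos ω (𝔇.g.v i) - (𝔓.ty t.typ).cp (pvlmH m) t.ctr‖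
  /-- rim times: a vertex of the arc is on no bank of `Σ⁺(t)`, `Σ⁻(s)` -/
  disj : ∀ v ∈ 𝔇.g.verts, v ∉ 𝔇.t.bkP ∧ v ∉ 𝔇.t.whP ∧ v ∉ 𝔇.s.bkM ∧ v ∉ 𝔇.s.whM
  /-- the second actual gates -/
  gate2_s : ∃ 𝔖₂ : PvwSt (pvxT ω), 𝔖₂.Gate (pvxPos ω) (pvlmH m) s.ctr (𝔓.ty2 s.typ) (pvxCol ω (𝔓.col s.typ))
  gate2_t : ∃ 𝔖₂ : PvwSt (pvxT ω), 𝔖₂.Gate (pvxPos ω) (pvlmH m) t.ctr (𝔓.ty2 t.typ) (pvxCol ω (𝔓.col t.typ))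

/-- the spine index of the pair `(s,t)` with the word `l` -/
def pvfhP (s t : PvbPin τ) (l : List PvtTurn) : PvtsPat τ := ⟨s.ctr, s.typ, t.ctr, t.typ, l⟩

/-- the union of the two hulls of the datum -/
def pvfhZ (𝔓 : PvxPar τ c) (m : ℕ) {ω : PVSample} (s t : PvbPin τ) (𝔇 : PvwDat (pvxT ω)) : Set (ℤ × ℤ) :=
  pvxHull (pvlmDel c m) 𝔇.s.fzIn ((𝔓.ty s.typ).cm (pvlmH m) s.ctr) (𝔓.num.rho * pvlmH m) ∪ pvxHull (pvlmDel c m) 𝔇.t.fzOut ((𝔓.ty t.typ).cp (pvlmH m) t.ctr) (𝔓.num.rho * pvlmH m)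

/-- **the corridor of the datum** = output of (L2) -/
structure PvfhCor (𝔓 : PvxPar τ c) (x : ℂ) (R : ℝ) (m : ℕ) {ω : PVSample} (s t : PvbPin τ) (𝔇 : PvwDat (pvxT ω)) (l : List PvtTurn) : Prop where
  /-- door to door -/
  ok : (𝔓.Γ m).Ok (pvfhP s t l)
  in5R : ∀ i, i ≤ l.length → ‖pvccC (pvfeZ (𝔓.Γ m) (pvfhP s t l)) (pvfeD (𝔓.Γ m) (pvfhP s t l)) l i - x‖ ≤ 5 * R
  /-- the tube misses `g₀` -/
  off : ∀ v ∈ 𝔇.g.verts, pvxPos ω v ∉ pvfeTube 3 (pvfeZ (𝔓.Γ m) (pvfhP s t l)) (pvfeD (𝔓.Γ m) (pvfhP s t l)) l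
  /-- the fields `simple nr adm lk` of `PvfeIx (𝔓.Γ m) 𝔓.ty 𝔓.num (pvlmH m) (pvfhP s t l) (pvfhZ 𝔓 m s t 𝔇)` (the field `sep` is paid by the glue) -/
  simple : PvccSimple l l.length
  nr : PvfeNR l
  adm : PvfeAdm (pvlmDel c m) 3 (2 * 𝔓.num.rho * pvlmH m) ((𝔓.ty s.typ).cm (pvlmH m) s.ctr) ((𝔓.ty t.typ).cp (pvlmH m) t.ctr) (pvfeZ (𝔓.Γ m) (pvfhP s t l)) (pvfeD (𝔓.Γ m) (pvfhP s t l)) l (pvfhZ 𝔓 m s t 𝔇)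
  lk : PvfeLk (pvlmDel c m) (𝔓.num.rho * pvlmH m + 4 * pvlmDel c m) (3 * 𝔓.num.rho * pvlmH m) ((𝔓.ty s.typ).cm (pvlmH m) s.ctr) ((𝔓.ty t.typ).cp (pvlmH m) t.ctr)
    (pvfeZ (𝔓.Γ m) (pvfhP s t l)) (pvfeD (𝔓.Γ m) (pvfhP s t l)) l (pvfhZ 𝔓 m s t 𝔇)
  /-- (b5) of `pvxPatSet` (TrModel v4.1, RULING 20 (1) of 234): the regions lie in the OPEN ball `B(x, 5R)` -/
  reg5 : ∀ Zs Zt : Finset (ℤ × ℤ), (𝔓.reg m ⟨pvfhP s t l, Zs, Zt⟩).Yreg ∪ (𝔓.reg m ⟨pvfhP s t l, Zs, Zt⟩).Ycol ⊆ ball x (5 * R)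

/-- **the statement of (L1) DICT-ARC at level `m`** -/
def PvfhArcAt (𝔓 : PvxPar τ c) (x : ℂ) (R : ℝ) (m : ℕ) : Prop :=
  ∀ ω : PVSample, PvxvGood x R (pvxvMu c m) ω → ∀ P ∈ pvhbAll x R ω, ∀ s ∈ pvxPins 𝔓 x R m ω P, ∀ t ∈ pvxPins 𝔓 x R m ω P, s.idx < t.idx →
    (∀ k, s.idx ≤ k → k ≤ t.idx → ‖P.v k - x‖ ≤ 2 * R) → R / 3 ≤ ‖s.ctr - t.ctr‖ → ∃ (𝔇 : PvwDat (pvxT ω)) (j : ℕ), PvfhArc 𝔓 x R m ω P s t 𝔇 j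

/-- **the statement of (L2) COR = FIT-DET at the model, level `m`** -/
def PvfhCorAt (𝔓 : PvxPar τ c) (x : ℂ) (R : ℝ) (m : ℕ) : Prop :=
  ∀ ω : PVSample, PvxvGood x R (pvxvMu c m) ω → ¬ PvxvBad x R (pvxvS1 c m) (pvxvS2 𝔓.num.rho m) ω → ∀ P ∈ pvhbAll x R ω, ∀ (s t : PvbPin τ),
    ‖s.ctr - x‖ ≤ 3 * R → ‖t.ctr - x‖ ≤ 3 * R → (∃ p : ℤ × ℤ, s.ctr = l9Pt (pvlmH m) p) → (∃ p : ℤ × ℤ, t.ctr = l9Pt (pvlmH m) p) → R / 3 ≤ ‖s.ctr - t.ctr‖ →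
    ∀ (𝔇 : PvwDat (pvxT ω)) (j : ℕ), PvfhArc 𝔓 x R m ω P s t 𝔇 j → ∃ l : List PvtTurn, PvfhCor 𝔓 x R m s t 𝔇 l

theorem pvfh_rec_eqns_cite : True := by
  have := @pvfhP.eq_1; have := @pvfhZ.eq_1; have := @PvfhArcAt.eq_1; have := @PvfhCorAt.eq_1
  trivial

end Claimed.Agent.R289
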