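-- KEEP
import Claimed.Agent.R289.Tr.InstE

/-!
# Row 289 (S0537), THE WALL, ROAD E, Defs/InstWf : `PvieEng.Wf` = THE EXPLICIT CONSTRAINTS ON THE REGIONS OF THE FOUR SPECIAL LINKS      (helper168, job of helper161; prefix `pviw`, `Pviw`)

WHO PRODUCES: S0 PAR (73; pens of the explicit regions 124 166), next to `pvxParOf`.      WHO CONSUMES: the roofs under `exit_pvx_ana` (ChainEq / Jensen 218, Dom 159 193 170, cyc1 129 58, thick 7 223 103, link bounds 21 221, transfer / locality 173 29).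
RULE (115): a roof uses NO property of the regions `oM oK oY | iM iK iY | eM eK eY | rK rY rO`, of the door plug `sp`, of the reference plug `rp` which is not a field below.   One more line needed: ONE line to 168 + 73.

ALL the regions with an index `t : τ` are RELATIVE TO THE CENTRE of the pin, absolute units (as in `PvieEng`).      `h = pvlmH m`, `δ = pvlmDel c m`, collar `= δ`.
* (M)  MOUTHS (geometry KEPT, colours of the fresh sites resampled): inside `B(x, ρ h)` for EVERY tip `x` of the tip cell [so (g3) `far_p far_m` of the full state: a recoloured site is frozen by neither half state but the own stub];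
       they contain `B(x, ρ h / 16)` [the tip apex and the start of the new strand are recoloured sites].
* (K)  everything RESAMPLED (tiles, doors, reference plug, thin chain `l1`) is OFF THE OWN-LEVEL BOX with the collar [frozen sites lie in the closed box (`StubP.ep_in`), their triangles are retained on Mesh].
* (Y)  ROOMS of the new strand: inside mouth ∪ tile ∪ plug region;   inside `Yin` of every pattern which uses the link [(C2) is applied with `𝔓.reg m π`].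
* (S)  DISJOINTNESS: the atoms of one link; the two mouths of one pin; the atoms of the WHOLE `Σ₁` cycle `t -first link-> door -l1-> door -rK-> reference plug -thick-> t` (`pviwCyc`).
* (P)  REGION PLUGS (v4): door type, `pvkdP r` of 34: the mesh window `pvwSq 0 (3 r)` lies in the region (v5: door unit `δ / 40`).   DEAD since v4: `𝔈.sp`, all of `𝔈.rp` but `.h` (= the unit `r` of the reference plug), contract (4a) (`G_sub rG_sub`: withdrawn), `κs` (kept in the signature only).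
* (B)  BOUNDED: the thick link lives in `closedBall 0 (Cth h)`, `Cth` independent of the level [Bessel mask of area `≤ C h²`].
* (meas) all Borel.      (kit) mesh of the cells, reference regions of 166.
v2 (124 W1 W2 N, 73, 254): EVERY geometric field is owed for the levels `m0 ≤ m` [at small levels `δ_m ~ h_m`: doors, tiles, plugs do not fit] and for the types with `pviwTyOk` [tip cells ON the boundary of the own-level box, `7ρ/4` apart];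
   `m0` := `𝔓.m0` as soon as `PvxPar` has it (TrModel v4, 187).   ONE lemma is owed by the state side (66 / 12 / 25): `pvxU 𝔓 m z t` nonempty on Mesh `⇒ pviwTyOk 𝔓 t`.   Numbers of 124 (units `ρ h`): recoloured mouth `7/40`, guaranteed ball round the tip `1/16`, door at `1/5`, `rI = 1/4`, `rO = 1/2`.
v5 (R20 (5) (7), R21 (1) of 234; 34 12:20Z; 7, 63):
* (F)  THE THICK RETURN `t → reference plug`: `fM fK fY`, mirror of `eM eK eY` at the EXIT mouth: lines (F1)-(F5), (F7) of 7 (`m_f* fM_in fM_tip fM_cen fK_off fY_sub th_disj f_bdd ef_sep`).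
* (W2) the four mouths lie in `closedBall (h y) (ρ h / 2)` (`*_half`): with `7ρ/4 ≤ |yp - ym|` a mouth misses the hull ball `B(y', ρ h + 3 δ)` of the other half state.
* v5.1 (R22 (1) of 234): W-7 of 208 (rooms = near halves), the mesh collar (Rc), the holes of 39, the gap of 39 are NOT lines of `Wf`: they are LEMMAS AT THE CONCRETE ENGINE (`Exit/EngRec`, binder `hR : PvnaRec ..`; authors of the rooms 124 166 182).
       Kept for them: `pviwMu 𝔓 m` (= `pvilMu 𝔓 m` of `Tr/InstL`, same body), `pviwX z d v` = the coordinate of `v` along `d` seen from `z` (`pvilHp z d = {0 ≤ pviwX z d ·}`), `pviwBp pviwBm` = own box with collar ∩ hull ball.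
* (P)  door plug `pvkdP (δ / 40)` (34 12:20Z: at `δ / 16` the lines `dp_win` and (L5) contradict each other).
* (L5) of 63 (tiles of the cells in the inner lanes `[-1/10, 4/10]`, door region in the open square of half side `δ / 10`): TO BE APPENDED (`kit_lane kit_O10`) as soon as `Tr/KitGeo` (258) is at the unit `1/40`: at `1/16` they are false at the instance of record.
NOT HERE (pattern level, state dependent): the tiles of the corridor of a pattern miss the mouths, the first / last tiles and the hulls `Zt⁺ Zs⁺` = `PvieSimple` + D20 (`PvfeAdm` of 209), owed by `pvxPatSet` / `pvxFit`.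
-/

set_option autoImplicit false

namespace Claimed.Agent.R289

open Set Metric
open scoped ComplexConjugate

section defs

variable {τ : Type} {c : ℝ} (𝔓 : PvxPar τ c) (𝔈 : PvieEng τ)

/-- **non degenerate types**: the two tip cells sit on the boundary of the own-level box (units of `h`), `7ρ/4` apart (`pvxo_nd_far` of 73; 124) -/
def pviwTyOk (t : τ) : Prop :=
  |pvccN (𝔓.ty t).yp - (2 * (𝔓.ty t).b2 + (𝔓.ty t).k * 𝔓.num.rho1)| ≤ 𝔓.num.rho / 10 ∧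
  |pvccN (𝔓.ty t).ym - (2 * (𝔓.ty t).b2 + (𝔓.ty t).k * 𝔓.num.rho1)| ≤ 𝔓.num.rho / 10 ∧
  7 * 𝔓.num.rho / 4 ≤ ‖(𝔓.ty t).yp - (𝔓.ty t).ym‖

/-- half side of the OWN-LEVEL box of a pin of type `t` -/
noncomputable def pviwRad (m : ℕ) (t : τ) : ℝ := pvwRad 𝔓.num (pvlmH m) (𝔓.ty t) (𝔓.ty t).k

/-- the own-level box with the collar `δ`, relative to the centre -/
noncomputable def pviwBox (m : ℕ) (t : τ) : Set ℂ := pvwSq 0 (pviwRad 𝔓 m t + pvlmDel c m)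

/-- region of the first door plug, relative to the centre -/
def pviwDo (m : ℕ) (ε : ℝ) (t : τ) : Set ℂ := pvieDoor 𝔈 m ε ((𝔓.Γ m).pout t) ((𝔓.Γ m).dout t)

/-- region of the last door plug, relative to the centre -/
def pviwDi (m : ℕ) (ε : ℝ) (t : τ) : Set ℂ := pvieDoor 𝔈 m ε ((𝔓.Γ m).pin t) ((𝔓.Γ m).din t)

/-- region of the reference plug of a pin of type `t`, relative to the centre of the pin -/
def pviwRo (m : ℕ) (t : τ) : Set ℂ := pvieSh ((𝔓.Γ m).zu t) (𝔈.rO m)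

/-- tile of the last link of the thin chain, relative to the centre of the pin -/
def pviwRk (m : ℕ) (t : τ) : Set ℂ := pvieSh ((𝔓.Γ m).zu t) (𝔈.rK m)

/-- the doors `0 .. n` of the thin chain `l1 t`, relative to the centre of the pin -/
noncomputable def pviwDoors (m : ℕ) (ε : ℝ) (t : τ) : List (Set ℂ) :=
  (List.range (((𝔓.Γ m).l1 t).length + 1)).map fun j =>
    pvieDoor 𝔈 m ε (pvthZ (𝔈.kit m ε).δ ((𝔓.Γ m).pout t) ((𝔓.Γ m).dout t) ((𝔓.Γ m).l1 t) j) (pvthD ((𝔓.Γ m).dout t) ((𝔓.Γ m).l1 t) j)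

/-- the tiles of the cells of the thin chain `l1 t`, relative to the centre of the pin -/
noncomputable def pviwCells (m : ℕ) (ε : ℝ) (t : τ) : List (Set ℂ) :=
  (List.range ((𝔓.Γ m).l1 t).length).map fun j =>
    pvthSim (pvthZ (𝔈.kit m ε).δ ((𝔓.Γ m).pout t) ((𝔓.Γ m).dout t) ((𝔓.Γ m).l1 t) j) (pvthD ((𝔓.Γ m).dout t) ((𝔓.Γ m).l1 t) j) '' (𝔈.kit m ε).K₀ (pvthL ((𝔓.Γ m).l1 t) j)

/-- everything which is RESAMPLED in the `Σ₁` cycle of a pin of type `t` -/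
noncomputable def pviwRes (m : ℕ) (ε : ℝ) (t : τ) : List (Set ℂ) :=
  [𝔈.oK m t, 𝔈.eK m t, pviwRk 𝔓 𝔈 m t, pviwRo 𝔓 𝔈 m t] ++ pviwDoors 𝔓 𝔈 m ε t ++ pviwCells 𝔓 𝔈 m ε t

/-- **the atoms of the `Σ₁` cycle**: the two recoloured mouths and the resampled regions -/
noncomputable def pviwCyc (m : ℕ) (ε : ℝ) (t : τ) : List (Set ℂ) := [𝔈.oM m t, 𝔈.eM m t] ++ pviwRes 𝔓 𝔈 m ε t

/-- the largest box of a placed plug with the collar `κ` -/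
def pviwPlugBox (N : PvwNum) (p : PviePl) (κ : ℝ) : Set ℂ := pvwSq p.z (pvwRad N p.h p.ty N.K + κ)

/-- **the mesh of the plain events of the special links** (R20 (3) of 234, 55; `/ 1000`: the margin of W-7 at a door plug is `δ / 160`) -/
noncomputable def pviwMu (m : ℕ) : ℝ := min (pvlmDel c m) (𝔓.num.rho3 * pvlmH m) / 1000

/-- the coordinate of `v` along `d`, seen from `z` -/
def pviwX (z d v : ℂ) : ℝ := ((v - z) * conj d).re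

/-- the part of the own-level box (with collar) which EVERY window of the exit half state contains: the hull ball round the grid centre of the exit tip cell -/
noncomputable def pviwBp (m : ℕ) (t : τ) : Set ℂ := pviwBox 𝔓 m t ∩ closedBall ((pvlmH m : ℂ) * (𝔓.ty t).yp) (𝔓.num.rho * pvlmH m)

/-- the same for the entrance half state -/
noncomputable def pviwBm (m : ℕ) (t : τ) : Set ℂ := pviwBox 𝔓 m t ∩ closedBall ((pvlmH m : ℂ) * (𝔓.ty t).ym) (𝔓.num.rho * pvlmH m)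

/-- **THE EXPLICIT CONSTRAINTS ON THE DATA OF THE ENGINE**      (`m0` = first level of the engine, `Cth` = size of the thick link in units of `h`, `r m` = half side of the door squares of 166, `κs m` = collar of the door plug) -/
structure PvieEng.Wf (m0 : ℕ) (Cth : ℝ) (r κs : ℕ → ℝ) : Prop where
  -- (meas)
  m_oM : ∀ m t, MeasurableSet (𝔈.oM m t)
  m_oK : ∀ m t, MeasurableSet (𝔈.oK m t)
  m_oY : ∀ m t, MeasurableSet (𝔈.oY m t)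
  m_iM : ∀ m t, MeasurableSet (𝔈.iM m t)
  m_iK : ∀ m t, MeasurableSet (𝔈.iK m t)
  m_iY : ∀ m t, MeasurableSet (𝔈.iY m t)
  m_eM : ∀ m t, MeasurableSet (𝔈.eM m t)
  m_eK : ∀ m t, MeasurableSet (𝔈.eK m t)
  m_eY : ∀ m t, MeasurableSet (𝔈.eY m t)
  m_rK : ∀ m, MeasurableSet (𝔈.rK m)
  m_rY : ∀ m, MeasurableSet (𝔈.rY m)
  m_rO : ∀ m, MeasurableSet (𝔈.rO m)
  m_fM : ∀ m t, MeasurableSet (𝔈.fM m t)
  m_fK : ∀ m t, MeasurableSet (𝔈.fK m t)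
  m_fY : ∀ m t, MeasurableSet (𝔈.fY m t)
  -- (kit)
  kit_del : ∀ m ε, (𝔈.kit m ε).δ = pvlmDel c m
  kit_ref : ∀ m ε, PvccKitRef (𝔈.kit m ε) (r m)
  /-- the regions of the kit do not depend on the mesh `ε` (only the soft thresholds do) -/
  kit_O : ∀ m ε ε', (𝔈.kit m ε).O₀ = (𝔈.kit m ε').O₀
  kit_K : ∀ m ε ε', (𝔈.kit m ε).K₀ = (𝔈.kit m ε').K₀
  -- (M) mouths
  oM_in : ∀ m, m0 ≤ m → ∀ t, pviwTyOk 𝔓 t → ∀ v ∈ 𝔈.oM m t, ∀ w ∈ 𝔓.cp t, ‖v - (pvlmH m : ℂ) * w‖ < 𝔓.num.rho * pvlmH m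
  iM_in : ∀ m, m0 ≤ m → ∀ t, pviwTyOk 𝔓 t → ∀ v ∈ 𝔈.iM m t, ∀ w ∈ 𝔓.cm t, ‖v - (pvlmH m : ℂ) * w‖ < 𝔓.num.rho * pvlmH m
  eM_in : ∀ m, m0 ≤ m → ∀ t, pviwTyOk 𝔓 t → ∀ v ∈ 𝔈.eM m t, ∀ w ∈ 𝔓.cm t, ‖v - (pvlmH m : ℂ) * w‖ < 𝔓.num.rho * pvlmH m
  oM_tip : ∀ m, m0 ≤ m → ∀ t, pviwTyOk 𝔓 t → ∀ w ∈ 𝔓.cp t, ball ((pvlmH m : ℂ) * w) (𝔓.num.rho * pvlmH m / 16) ⊆ 𝔈.oM m t
  iM_tip : ∀ m, m0 ≤ m → ∀ t, pviwTyOk 𝔓 t → ∀ w ∈ 𝔓.cm t, ball ((pvlmH m : ℂ) * w) (𝔓.num.rho * pvlmH m / 16) ⊆ 𝔈.iM m t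
  eM_tip : ∀ m, m0 ≤ m → ∀ t, pviwTyOk 𝔓 t → ∀ w ∈ 𝔓.cm t, ball ((pvlmH m : ℂ) * w) (𝔓.num.rho * pvlmH m / 16) ⊆ 𝔈.eM m t
  /-- (96) the mouths lie in the protected balls round the GRID centres of the tip cells (`far_p far_m` of the full state) -/
  oM_cen : ∀ m, m0 ≤ m → ∀ t, pviwTyOk 𝔓 t → 𝔈.oM m t ⊆ closedBall ((pvlmH m : ℂ) * (𝔓.ty t).yp) (2 * 𝔓.num.rho * pvlmH m)
  iM_cen : ∀ m, m0 ≤ m → ∀ t, pviwTyOk 𝔓 t → 𝔈.iM m t ⊆ closedBall ((pvlmH m : ℂ) * (𝔓.ty t).ym) (2 * 𝔓.num.rho * pvlmH m)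
  eM_cen : ∀ m, m0 ≤ m → ∀ t, pviwTyOk 𝔓 t → 𝔈.eM m t ⊆ closedBall ((pvlmH m : ℂ) * (𝔓.ty t).ym) (2 * 𝔓.num.rho * pvlmH m)
  fM_in : ∀ m, m0 ≤ m → ∀ t, pviwTyOk 𝔓 t → ∀ v ∈ 𝔈.fM m t, ∀ w ∈ 𝔓.cp t, ‖v - (pvlmH m : ℂ) * w‖ < 𝔓.num.rho * pvlmH m
  fM_tip : ∀ m, m0 ≤ m → ∀ t, pviwTyOk 𝔓 t → ∀ w ∈ 𝔓.cp t, ball ((pvlmH m : ℂ) * w) (𝔓.num.rho * pvlmH m / 16) ⊆ 𝔈.fM m t
  fM_cen : ∀ m, m0 ≤ m → ∀ t, pviwTyOk 𝔓 t → 𝔈.fM m t ⊆ closedBall ((pvlmH m : ℂ) * (𝔓.ty t).yp) (2 * 𝔓.num.rho * pvlmH m)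
  /-- (W2, 234 12:08Z) a mouth misses the hull ball of the other half state -/
  oM_half : ∀ m, m0 ≤ m → ∀ t, pviwTyOk 𝔓 t → 𝔈.oM m t ⊆ closedBall ((pvlmH m : ℂ) * (𝔓.ty t).yp) (𝔓.num.rho * pvlmH m / 2)
  iM_half : ∀ m, m0 ≤ m → ∀ t, pviwTyOk 𝔓 t → 𝔈.iM m t ⊆ closedBall ((pvlmH m : ℂ) * (𝔓.ty t).ym) (𝔓.num.rho * pvlmH m / 2)
  eM_half : ∀ m, m0 ≤ m → ∀ t, pviwTyOk 𝔓 t → 𝔈.eM m t ⊆ closedBall ((pvlmH m : ℂ) * (𝔓.ty t).ym) (𝔓.num.rho * pvlmH m / 2)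
  fM_half : ∀ m, m0 ≤ m → ∀ t, pviwTyOk 𝔓 t → 𝔈.fM m t ⊆ closedBall ((pvlmH m : ℂ) * (𝔓.ty t).yp) (𝔓.num.rho * pvlmH m / 2)
  -- (K) resampled regions off the own-level box
  res_off : ∀ m, m0 ≤ m → ∀ ε t, pviwTyOk 𝔓 t → ∀ S ∈ pviwRes 𝔓 𝔈 m ε t, Disjoint S (pviwBox 𝔓 m t)
  iK_off : ∀ m, m0 ≤ m → ∀ t, pviwTyOk 𝔓 t → Disjoint (𝔈.iK m t) (pviwBox 𝔓 m t)
  Di_off : ∀ m, m0 ≤ m → ∀ ε t, pviwTyOk 𝔓 t → Disjoint (pviwDi 𝔓 𝔈 m ε t) (pviwBox 𝔓 m t)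
  fK_off : ∀ m, m0 ≤ m → ∀ t, pviwTyOk 𝔓 t → Disjoint (𝔈.fK m t) (pviwBox 𝔓 m t)
  -- (Y) rooms
  oY_sub : ∀ m, m0 ≤ m → ∀ ε t, pviwTyOk 𝔓 t → 𝔈.oY m t ⊆ 𝔈.oM m t ∪ 𝔈.oK m t ∪ pviwDo 𝔓 𝔈 m ε t
  iY_sub : ∀ m, m0 ≤ m → ∀ ε t, pviwTyOk 𝔓 t → 𝔈.iY m t ⊆ 𝔈.iM m t ∪ 𝔈.iK m t ∪ pviwDi 𝔓 𝔈 m ε t
  eY_sub : ∀ m, m0 ≤ m → ∀ t, pviwTyOk 𝔓 t → 𝔈.eY m t ⊆ 𝔈.eM m t ∪ 𝔈.eK m t ∪ pviwRo 𝔓 𝔈 m t
  rY_sub : ∀ m, m0 ≤ m → ∀ ε, 𝔈.rY m ⊆ 𝔈.rK m ∪ 𝔈.rO m ∪ pvieDoor 𝔈 m ε (𝔓.Γ m).pin0 (𝔓.Γ m).din0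
  fY_sub : ∀ m, m0 ≤ m → ∀ t, pviwTyOk 𝔓 t → 𝔈.fY m t ⊆ 𝔈.fM m t ∪ 𝔈.fK m t ∪ pviwRo 𝔓 𝔈 m t
  oY_reg : ∀ m, m0 ≤ m → ∀ π : PvxIx τ, pviwTyOk 𝔓 π.p.tt → pvieSh π.p.zt (𝔈.oY m π.p.tt) ⊆ (𝔓.reg m π).Yin
  iY_reg : ∀ m, m0 ≤ m → ∀ π : PvxIx τ, pviwTyOk 𝔓 π.p.ts → pvieSh π.p.zs (𝔈.iY m π.p.ts) ⊆ (𝔓.reg m π).Yin
  -- (S) disjointness
  o_disj : ∀ m, m0 ≤ m → ∀ ε t, pviwTyOk 𝔓 t → [𝔈.oM m t, 𝔈.oK m t, pviwDo 𝔓 𝔈 m ε t].Pairwise Disjoint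
  i_disj : ∀ m, m0 ≤ m → ∀ ε t, pviwTyOk 𝔓 t → [𝔈.iM m t, 𝔈.iK m t, pviwDi 𝔓 𝔈 m ε t].Pairwise Disjoint
  oi_disj : ∀ m, m0 ≤ m → ∀ t, pviwTyOk 𝔓 t → Disjoint (𝔈.oM m t) (𝔈.iM m t)
  cyc_disj : ∀ m, m0 ≤ m → ∀ ε t, pviwTyOk 𝔓 t → (pviwCyc 𝔓 𝔈 m ε t).Pairwise Disjoint
  /-- (F3) of 7: the atoms of the closed thick pair `u → t → u` -/
  th_disj : ∀ m, m0 ≤ m → ∀ t, pviwTyOk 𝔓 t → [𝔈.eM m t, 𝔈.eK m t, 𝔈.fM m t, 𝔈.fK m t, pviwRo 𝔓 𝔈 m t].Pairwise Disjoint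
  /-- (F7) of 7, metric form of 182 (`pvef_sep_del`): the rooms of the two thick links are apart -/
  ef_sep : ∀ m, m0 ≤ m → ∀ t, pviwTyOk 𝔓 t → ∀ a ∈ 𝔈.eY m t, ∀ b ∈ 𝔈.fY m t, pvlmDel c m ≤ ‖a - b‖
  -- (P) region plugs: ALL artificial plugs are DOOR TYPE (234 11:02Z (3), 24, 163): plug of record `pvkdP r` of 34, mesh window `pvwSq 0 (3 r)`; door plug `r = δ / 40` (34 12:20Z), reference plug `r = (𝔈.rp m).h`
  dp_win : ∀ m, m0 ≤ m → ∀ ε, pvwSq 0 (3 * (pvlmDel c m / 40)) ⊆ (𝔈.kit m ε).O₀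
  κs0 : ∀ m, 0 < κs m
  rp_h : ∀ m, m0 ≤ m → 0 < (𝔈.rp m).h
  rp_win : ∀ m, m0 ≤ m → pvwSq 0 (3 * (𝔈.rp m).h) ⊆ 𝔈.rO m
  -- (B) the thick link is short
  e_bdd : ∀ m, m0 ≤ m → ∀ t, pviwTyOk 𝔓 t → 𝔈.eM m t ∪ 𝔈.eK m t ∪ pviwRo 𝔓 𝔈 m t ⊆ closedBall 0 (Cth * pvlmH m)
  f_bdd : ∀ m, m0 ≤ m → ∀ t, pviwTyOk 𝔓 t → 𝔈.fM m t ∪ 𝔈.fK m t ⊆ closedBall 0 (Cth * pvlmH m)

end defs

theorem pviw_eqns_cite : True := by
  have := @pviwTyOk.eq_1; have := @pviwRad.eq_1; have := @pviwBox.eq_1; have := @pviwDo.eq_1; have := @pviwDi.eq_1; have := @pviwRo.eq_1; have := @pviwRk.eq_1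
  have := @pviwDoors.eq_1; have := @pviwCells.eq_1; have := @pviwRes.eq_1; have := @pviwCyc.eq_1; have := @pviwPlugBox.eq_1
  have := @pviwMu.eq_1; have := @pviwX.eq_1; have := @pviwBp.eq_1; have := @pviwBm.eq_1
  trivial

end Claimed.Agent.R289
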