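-- KEEP
import Claimed.Agent.R289.Tr.InstL
import Claimed.Agent.R289.Defs.InstWf
import Claimed.Agent.R289.Tr.Ret

/-!
# Row 289 (S0537), THE WALL, ROAD E, file Defs/GdReg : THE NAMED SETS OF THE GOOD PART = MESH CERTIFICATE + FORCED LINKS, AT THE DEFS OF `Tr/InstL`      (helper256, pen of `exit_pvie_gd`; prefix `pvrg_`, `pvrg`, `Pvrg`)

BELOW `Exit/AnaDefs.lean` (rule of 271 11:24Z, direction rule of 45): `PvnaGd.Wf` = field `bad` + INCLUSIONS `𝔊.O m ε z t ⊆ NamedSet ..`.      THIS FILE = named sets which every roof may cite;   `bad` for them = `Tr/RegE.lean`.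
* sec. 1  `pvrgMesh r E` = THE MESH CERTIFICATE (`PvtrMesh` of 220: read in `E`, colour blind): `pvrg_mesh_congr _reads _cfOf _mono`, **`pvrg_mesh_R`** (invariant under every hybrid resampling off `E`).
* sec. 2  **`pvrgFrc ε C yf G P q`** = FORCED, BY DEFINITION: the base configurations at which, for ALMOST EVERY seed of the experiment `(C, yf)` whose integrated plug is usable (`∈ G`), the conditional probability `P` of the link is `≥ q`.
          ALMOST EVERY, NOT EVERY: a seed whose door sites are cocircular with kept sites kills `DelGood`, hence the link, for every value of the tile: with `∀ p` the set is EMPTY and `bad` is false.      (The pointwise `Frc` of `PvkeFun` = null modification, SoftE of 141.)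
          `pvrg_frc_anti _mono`, `pvrg_frc_congr` (reads what `pvdyR` reads), **`pvrg_frc_R`** (invariant under its own experiment), **`pvrg_frc_big`** (transfer to a LARGER experiment, SAME seed), **`pvrg_frc_wt`** (`1_G 1_A / P ≤ 1/q` along the experiment), `pvrg_frc_pos`.
* sec. 3  an end link of 218: `pvrgEnd ε e D G q`, `pvrg_end_W` (`1_G pvdyW ≤ 1/q` a.e. along the experiment of `pvkyK` / `pvilKeW`).
* sec. 4  **THE NAMED SETS AT THE MODEL** (arguments `q m ε z t`; everything at the base data of the configuration itself):   `pvrgFo` (first link, door plug integrated), `pvrgFi` (last link), `pvrgFe` (thick link, reference plug integrated),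
          `pvrgB` (mesh `δ_m / 3` read in the own-level box with its collar: every Delaunay triangle with a vertex in the closed box is retained), `pvrgMo pvrgMi pvrgMe` (mesh `r` read in the kept mouths).
-/

set_option autoImplicit false

namespace Claimed.Agent.R289

open MeasureTheory Set Claims.C0465
open scoped ENNReal

/-! ## 1. the mesh certificate -/

/-- **THE MESH CERTIFICATE**, read in `E`, colour blind: every point of the `r`-core of `E` has a site at distance `≤ r`      (`PvtrMesh` of 220: all the Delaunay triangles which meet the `3r`-core of `E` are RETAINED, `pvtr_of_mesh`) -/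
def pvrgMesh (r : ℝ) (E : Set ℂ) : Set (Conf PvPt) := {η | PvtrMesh r E (cfSites η)}

theorem pvrg_mesh_congr {r : ℝ} {E : Set ℂ} {η η' : Conf PvPt} (h : cfSites η ∩ E = cfSites η' ∩ E) : η ∈ pvrgMesh r E ↔ η' ∈ pvrgMesh r E := pvtr_mesh_congr h

theorem pvrg_mesh_reads (r : ℝ) (E : Set ℂ) : Conf.ReadsSet (E ×ˢ (univ : Set Bool)) (pvrgMesh r E) := fun η => by
  have h : PvtrMesh r E (cfSites (Conf.restr (E ×ˢ univ) η)) = PvtrMesh r E (cfSites η) := pvtr_reads_mesh r E η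
  exact iff_of_eq h

/-- colour blind -/
theorem pvrg_mesh_cfOf (r : ℝ) (E Y : Set ℂ) (σ σ' : ℂ → Bool) : cfOf Y σ ∈ pvrgMesh r E ↔ cfOf Y σ' ∈ pvrgMesh r E := by
  unfold pvrgMesh
  simp only [mem_ofPred_eq, cfOf_sites]

/-- **invariant under every hybrid resampling off `E`** -/
theorem pvrg_mesh_R {r : ℝ} {E C : Set ℂ} (hd : Disjoint C E) (yf : Conf PvPt → Set ℂ) (η : Conf PvPt) (p : (ℂ → Bool) × Conf PvPt) :
    pvdyR C yf η p ∈ pvrgMesh r E ↔ η ∈ pvrgMesh r E := by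
  refine pvrg_mesh_congr ?_
  rw [pvdy_sites_R]
  ext z
  simp only [mem_inter_iff, mem_union, Set.mem_sdiff]
  constructor
  · rintro ⟨⟨h1, -⟩ | ⟨-, h2⟩, h3⟩
    · exact ⟨h1, h3⟩
    · exact absurd h3 (disjoint_left.1 hd h2)
  · rintro ⟨h1, h3⟩
    exact ⟨Or.inl ⟨h1, fun h2 => disjoint_left.1 hd h2 h3⟩, h3⟩

theorem pvrg_mesh_mono {r : ℝ} {E E' : Set ℂ} (h : E' ⊆ E) : pvrgMesh r E ⊆ pvrgMesh r E' := fun _ hη z hz => hη z (pvtr_core_mono h hz)

/-- what the certificate is for: a Delaunay triangle with a vertex in the `3r`-core of `E` is retained in `E` -/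
theorem pvrg_mesh_ret {r : ℝ} (hr : 0 < r) {E : Set ℂ} {η : Conf PvPt} (hη : η ∈ pvrgMesh r E) {a b c : ℂ} (ha : a ∈ pvtrCore (3 * r) E) (h : DelTri (cfSites η) a b c) : PvRet r E (cfSites η) a b c :=
  pvtr_of_mesh_vertex hr hη ha h

/-! ## 2. FORCED, by definition -/

/-- **FORCED**: for almost every seed of the experiment `(C, yf)` at the base `η` whose integrated plug is usable, the conditional probability `P` of the link is at least `q` -/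
def pvrgFrc (ε : ℝ) (C : Set ℂ) (yf : Conf PvPt → Set ℂ) (G : Set (Conf PvPt)) (P : Conf PvPt → ℝ≥0∞) (q : ℝ≥0∞) : Set (Conf PvPt) :=
  {η | ∀ᵐ p ∂pvdyNu ε, pvdyR C yf η p ∈ G → q ≤ P (pvdyR C yf η p)}

theorem pvrg_eqns_cite : True := by
  have := @pvrgMesh.eq_1; have := @pvrgFrc.eq_1
  trivial

theorem pvrg_mem_frc {ε : ℝ} {C : Set ℂ} {yf : Conf PvPt → Set ℂ} {G : Set (Conf PvPt)} {P : Conf PvPt → ℝ≥0∞} {q : ℝ≥0∞} {η : Conf PvPt} :
    η ∈ pvrgFrc ε C yf G P q ↔ ∀ᵐ p ∂pvdyNu ε, pvdyR C yf η p ∈ G → q ≤ P (pvdyR C yf η p) := Iff.rfl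

theorem pvrg_frc_anti (ε : ℝ) (C : Set ℂ) (yf : Conf PvPt → Set ℂ) (G : Set (Conf PvPt)) (P : Conf PvPt → ℝ≥0∞) {q q' : ℝ≥0∞} (h : q' ≤ q) : pvrgFrc ε C yf G P q ⊆ pvrgFrc ε C yf G P q' :=
  fun _ hη => (pvrg_mem_frc.1 hη).mono fun _ hp hG => h.trans (hp hG)

theorem pvrg_frc_mono (ε : ℝ) (C : Set ℂ) (yf : Conf PvPt → Set ℂ) {G G' : Set (Conf PvPt)} (hG : G' ⊆ G) {P P' : Conf PvPt → ℝ≥0∞} (hP : ∀ η, P η ≤ P' η) (q : ℝ≥0∞) :
    pvrgFrc ε C yf G P q ⊆ pvrgFrc ε C yf G' P' q :=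
  fun _ hη => (pvrg_mem_frc.1 hη).mono fun _ hp h => (hp (hG h)).trans (hP _)

/-- FORCED reads what the experiment reads -/
theorem pvrg_frc_congr (ε : ℝ) {C : Set ℂ} {yf : Conf PvPt → Set ℂ} (G : Set (Conf PvPt)) (P : Conf PvPt → ℝ≥0∞) (q : ℝ≥0∞) {η η' : Conf PvPt} (h : ∀ p, pvdyR C yf η' p = pvdyR C yf η p) :
    η' ∈ pvrgFrc ε C yf G P q ↔ η ∈ pvrgFrc ε C yf G P q := by
  unfold pvrgFrc
  simp only [mem_ofPred_eq, h]

/-- **FORCED is invariant under its own experiment** (as soon as the choice of the fresh sites is not changed by the resampling; `Iff.rfl` for a constant choice) -/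
theorem pvrg_frc_R (ε : ℝ) {C : Set ℂ} {yf : Conf PvPt → Set ℂ} (G : Set (Conf PvPt)) (P : Conf PvPt → ℝ≥0∞) (q : ℝ≥0∞) {η : Conf PvPt} {p : (ℂ → Bool) × Conf PvPt}
    (h : ∀ z ∈ cfSites η, z ∉ C → (z ∈ yf (pvdyR C yf η p) ↔ z ∈ yf η)) : pvdyR C yf η p ∈ pvrgFrc ε C yf G P q ↔ η ∈ pvrgFrc ε C yf G P q :=
  pvrg_frc_congr ε G P q (pvdy_R_R h)

/-- **TRANSFER TO ANOTHER (LARGER) EXPERIMENT, SAME SEED**: `G` and `P` do not see the difference between the two resampled configurations -/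
theorem pvrg_frc_big {ε : ℝ} {C C' : Set ℂ} {yf yf' : Conf PvPt → Set ℂ} {G : Set (Conf PvPt)} {P : Conf PvPt → ℝ≥0∞} {q : ℝ≥0∞} {η : Conf PvPt} (hη : η ∈ pvrgFrc ε C yf G P q)
    (hG : ∀ p, pvdyR C' yf' η p ∈ G → pvdyR C yf η p ∈ G) (hP : ∀ p, pvdyR C' yf' η p ∈ G → P (pvdyR C yf η p) ≤ P (pvdyR C' yf' η p)) :
    ∀ᵐ p ∂pvdyNu ε, pvdyR C' yf' η p ∈ G → q ≤ P (pvdyR C' yf' η p) :=
  (pvrg_mem_frc.1 hη).mono fun p hp h => (hp (hG p h)).trans (hP p h)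

/-- **THE WEIGHT OF A FORCED LINK IS BOUNDED ALONG THE EXPERIMENT** -/
theorem pvrg_frc_wt {ε : ℝ} {C : Set ℂ} {yf : Conf PvPt → Set ℂ} {G : Set (Conf PvPt)} {P : Conf PvPt → ℝ≥0∞} {q : ℝ≥0∞} {η : Conf PvPt} (hη : η ∈ pvrgFrc ε C yf G P q) (A : Set (Conf PvPt)) :
    ∀ᵐ p ∂pvdyNu ε, G.indicator 1 (pvdyR C yf η p) * (A.indicator 1 (pvdyR C yf η p) / P (pvdyR C yf η p)) ≤ q⁻¹ := by
  refine (pvrg_mem_frc.1 hη).mono fun p hp => ?_
  by_cases hG : pvdyR C yf η p ∈ G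
  · rw [indicator_of_mem hG, Pi.one_apply, one_mul, div_eq_mul_inv]
    calc A.indicator 1 (pvdyR C yf η p) * (P (pvdyR C yf η p))⁻¹ ≤ 1 * q⁻¹ := by
          refine mul_le_mul' ?_ (ENNReal.inv_le_inv.2 (hp hG))
          by_cases hA : pvdyR C yf η p ∈ A
          · rw [indicator_of_mem hA]; rfl
          · rw [indicator_of_notMem hA]; exact zero_le
      _ = q⁻¹ := one_mul _
  · rw [indicator_of_notMem hG, zero_mul]
    exact zero_le

/-- the denominators do not vanish -/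
theorem pvrg_frc_pos {ε : ℝ} {C : Set ℂ} {yf : Conf PvPt → Set ℂ} {G : Set (Conf PvPt)} {P : Conf PvPt → ℝ≥0∞} {q : ℝ≥0∞} (hq : q ≠ 0) {η : Conf PvPt} (hη : η ∈ pvrgFrc ε C yf G P q) :
    ∀ᵐ p ∂pvdyNu ε, pvdyR C yf η p ∈ G → P (pvdyR C yf η p) ≠ 0 :=
  (pvrg_mem_frc.1 hη).mono fun _ hp hG h0 => hq (le_zero_iff.1 (h0 ▸ hp hG))

/-! ## 3. an end link of 218 with its integrated plug -/

/-- **the end link `e` (218) is FORCED at the base configuration**: plug region `D`, usable event `G` -/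
def pvrgEnd (ε : ℝ) (e : PvkyEnd) (D : Set ℂ) (G : Set (Conf PvPt)) (q : ℝ≥0∞) : Set (Conf PvPt) := pvrgFrc ε (e.K ∪ D) e.y G (pvdyQ ε e.K e.y e.A) q

/-- the weight `1_G * pvdyW` of the end link is `≤ 1/q` for almost every seed -/
theorem pvrg_end_W {ε : ℝ} {e : PvkyEnd} {D : Set ℂ} {G : Set (Conf PvPt)} {q : ℝ≥0∞} {η : Conf PvPt} (hη : η ∈ pvrgEnd ε e D G q) :
    ∀ᵐ p ∂pvdyNu ε, G.indicator 1 (pvdyR (e.K ∪ D) e.y η p) * pvdyW ε e.K e.y e.A (pvdyR (e.K ∪ D) e.y η p) ≤ q⁻¹ := pvrg_frc_wt hη e.A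

theorem pvrg_end_pos {ε : ℝ} {e : PvkyEnd} {D : Set ℂ} {G : Set (Conf PvPt)} {q : ℝ≥0∞} (hq : q ≠ 0) {η : Conf PvPt} (hη : η ∈ pvrgEnd ε e D G q) :
    ∀ᵐ p ∂pvdyNu ε, pvdyR (e.K ∪ D) e.y η p ∈ G → pvdyQ ε e.K e.y e.A (pvdyR (e.K ∪ D) e.y η p) ≠ 0 := pvrg_frc_pos hq hη

/-! ## 4. the named sets at the model -/

section model

variable {τ : Type} {c : ℝ} (𝔓 : PvxPar τ c) (𝔈 : PvieEng τ)

/-- the door plug at `(z', d)` is usable, colour `b` -/
def pvrgGk (m : ℕ) (ε : ℝ) (b : Bool) (z' d : ℂ) : Set (Conf PvPt) := pvkyFl b ⁻¹' (𝔈.kit m ε).G z' d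

/-- the reference plug at `z'` is usable, colour `b` -/
def pvrgGr (m : ℕ) (ε : ℝ) (b : Bool) (z' : ℂ) : Set (Conf PvPt) := pvkyFl b ⁻¹' (cfMap (pvthInv z' 1) ⁻¹' 𝔈.rG m ε)

/-- **(Fo) THE FIRST LINK `t → door plug` IS FORCED** at the base data of the configuration (the experiment of `pvilKout`) -/
def pvrgFo (q : ℝ≥0∞) (m : ℕ) (ε : ℝ) (z : ℂ) (t : τ) : Set (Conf PvPt) :=
  {η | η ∈ pvrgEnd ε (pvilEoAt 𝔓 𝔈 m ε pvilQ z t η) (pvkyDoor (𝔈.kit m ε) (pvieZo 𝔓 m z t) ((𝔓.Γ m).dout t)) (pvrgGk 𝔈 m ε (𝔓.col t) (pvieZo 𝔓 m z t) ((𝔓.Γ m).dout t)) q}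

/-- **(Fi) THE LAST LINK `door plug → t` IS FORCED** (the experiment of `pvilKin`) -/
def pvrgFi (q : ℝ≥0∞) (m : ℕ) (ε : ℝ) (z : ℂ) (t : τ) : Set (Conf PvPt) :=
  {η | η ∈ pvrgEnd ε (pvilEiAt 𝔓 𝔈 m ε pvilQ z t η) (pvkyDoor (𝔈.kit m ε) (pvieZi 𝔓 m z t) ((𝔓.Γ m).din t)) (pvrgGk 𝔈 m ε (𝔓.col t) (pvieZi 𝔓 m z t) ((𝔓.Γ m).din t)) q}

/-- **(Fe) THE THICK LINK `reference plug → t` IS FORCED** (the experiment of `pvilKe`) -/
def pvrgFe (q : ℝ≥0∞) (m : ℕ) (ε : ℝ) (z : ℂ) (t : τ) : Set (Conf PvPt) :=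
  {η | η ∈ pvrgEnd ε (pvilEeAt 𝔓 𝔈 m ε pvilQ z t η) (pvieSh (pvieZu 𝔓 m z t) (𝔈.rO m)) (pvrgGr 𝔈 m ε (𝔓.col t) (pvieZu 𝔓 m z t)) q}

/-- **(B) THE CERTIFICATE OF THE OWN-LEVEL BOX**: mesh `δ_m / 3` read in the box with its collar `δ_m` -/
def pvrgB (m : ℕ) (z : ℂ) (t : τ) : Set (Conf PvPt) := pvrgMesh (pvlmDel c m / 3) (pvieSh z (pviwBox 𝔓 m t))

/-- mesh `r` read in the kept exit mouth -/
def pvrgMo (r : ℝ) (m : ℕ) (z : ℂ) (t : τ) : Set (Conf PvPt) := pvrgMesh r (pvieSh z (𝔈.oM m t))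
/-- mesh `r` read in the kept entrance mouth of the last link -/
def pvrgMi (r : ℝ) (m : ℕ) (z : ℂ) (t : τ) : Set (Conf PvPt) := pvrgMesh r (pvieSh z (𝔈.iM m t))
/-- mesh `r` read in the kept entrance mouth of the thick link -/
def pvrgMe (r : ℝ) (m : ℕ) (z : ℂ) (t : τ) : Set (Conf PvPt) := pvrgMesh r (pvieSh z (𝔈.eM m t))

end model

theorem pvrg_eqns_cite0 : True := by
  have := @pvrgEnd.eq_1; have := @pvrgGk.eq_1; have := @pvrgGr.eq_1; have := @pvrgFo.eq_1; have := @pvrgFi.eq_1; have := @pvrgFe.eq_1; have := @pvrgB.eq_1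
  have := @pvrgMo.eq_1; have := @pvrgMi.eq_1; have := @pvrgMe.eq_1
  trivial

end Claimed.Agent.R289
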