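-- KEEP
import Claimed.Agent.R289.Tr.InstL
import Claimed.Agent.R289.Defs.InstWf

/-!
# Row 289 (S0537), THE WALL, ROAD E, Defs/GdThick : THE THICK RETURN, THE BASE DATA AND THE GOOD SET OF THE FIELD `thick` AT THE NAMES OF `Tr/InstL`      (helper223, second of helper7; prefix `pvjt`, `Pvjt`)

DEFS ONLY (order of 271, 11:24Z: a NAMED SET is a def in a file below `Exit/AnaDefs`).      Consumer: `Exit/ThickL.lean` (the explicit `PvekDat` of `Exit/Thick.lean` of 7, the cut of `exit_pvie_thick`).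
* `PvjtRet τ` = the data of the THICK RETURN `f : t → reference plug` (`fM fK fY`, mirror of `eM eK eY` of `PvieEng`) + the deterministic mask `Mk` of the thick link `e`.      Relative to the centre of the pin, absolute units.      [geometry: 182 `Exit/ParEngF`]
* `pvjtLf pvjtWnf pvjtMf pvjtAf` = link, window, plain event, SOFT success of the return at the hull `Z` of `Σ_out(t)` (`pvilFin`: empty at an infinite hull);   `pvjtAe` := `(pvilEe ..).A` = success of the thick link `e` at the hull `Z` of `Σ_in(t)`, FOR THE WEIGHT `wt` (InstL v2.1, (D1) of 7: `Sure (M ∩ {plain value = soft value})`).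
* InstL v2.2: window of the return `pvjtWnf = pvilWz Z ∪ fM ∪ fK ∪ (zu + rO)` (FUNCTION OF `Z` ALONE, hull cut by the own-level box `+ δ`), the plain event `pvjtMf` contains the mesh `pvilMs` of its window (mirror of `pvilMe`).
* `pvjtRetE 𝔈 Mk` = THE RETURN OF RECORD: the fields `fM fK fY` of `PvieEng` (R20 (5), 168) + the mask.      `pvjtEf`, `pvjtEfAt` = the return as an END of 218 at base data / at the base data of a configuration (for `pvrgEnd` of 256: forced in its OWN experiment).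
* `pvjtGi` = (G) of 290: deterministic guard on the index: the cells of the exit hull miss the entrance mouth ball `5ρh/8`, and mirror (true at the base data of a full state: `far_p far_m`; without it the two HALF states of `Me ∩ Mf` may touch: no ring).
* InstL v2.1: the end `u` (reference plug) is a DOOR END `pvilPlug (pvilRu 𝔈 m) zu 1`: `pvjtLf` = `⟨pin, plug, z + fY, univ, false, true⟩` (of the return only the EVENT is used: its mask is irrelevant).
* `pvjtLv` = the level is a level of the engine and the type is not degenerate (the regions are junk otherwise).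
* `PvjtIx`, `pvjtBeta` = THE BASE DATA `((Z_in, F_in), (Z_out, F_out))` of a configuration, GUARDED by `pvjtLv` and by the FULL state (`none` off `pvilU`: 96, the unguarded union of the two half choices is not a stopping choice).
* `pvjtC` = the resampled region `eK ∪ (zu + rO) ∪ fK`;   `pvjtYe pvjtYf pvjtY` = the recoloured sites (CONSTANT in one experiment);   `pvjtR` = the experiment at base data `i`;   `pvjtGu` = the reference plug is usable.
* **`pvjtGd wt q q'`** = (K5) of 7: `pvjtLv` and the configurations at whose base data, for a.e. seed with a usable reference plug, BOTH thick links are forced.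
-/

set_option autoImplicit false

namespace Claimed.Agent.R289

open Set MeasureTheory Filter Topology Claims.C0465
open scoped ENNReal

/-- **THE DATA OF THE THICK RETURN** `t → reference plug` and THE MASK of the thick link `reference plug → t` -/
structure PvjtRet (τ : Type) where
  /-- recoloured (exit) mouth -/
  fM : ℕ → τ → Set ℂ
  /-- resampled tile -/
  fK : ℕ → τ → Set ℂ
  /-- room of the strand -/
  fY : ℕ → τ → Set ℂ
  /-- the deterministic mask of the thick link `e : u → t` -/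
  Mk : ℕ → τ → Set ℂ

/-- the base data of a candidate: (hull, frozen positions) of `Σ_in`, (hull, frozen positions) of `Σ_out` -/
abbrev PvjtIx : Type := (Set (ℤ × ℤ) × Set ℂ) × (Set (ℤ × ℤ) × Set ℂ)

section defs

variable {τ : Type} {c : ℝ} (𝔓 : PvxPar τ c) (𝔈 : PvieEng τ) (𝔯 : PvjtRet τ) (wt : ∀ η : Conf PvPt, (delbPl (pvieY η)).Dart → ℂ)

/-- the thick return `t → reference plug` -/
noncomputable def pvjtLf (m : ℕ) (z : ℂ) (t : τ) : PvilLk :=
  ⟨pvilPin 𝔓 m z t, pvilPlug (pvilRu 𝔈 m) (pvieZu 𝔓 m z t) 1, pvieSh z (𝔯.fY m t), univ, false, true⟩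

/-- window of the thick return -/
noncomputable def pvjtWnf (m : ℕ) (z : ℂ) (t : τ) (Z : Set (ℤ × ℤ)) : Set ℂ :=
  pvilWz 𝔓 m z t Z ∪ pvieSh z (𝔯.fM m t) ∪ pvieSh z (𝔯.fK m t) ∪ pvieSh (pvieZu 𝔓 m z t) (𝔈.rO m)

/-- the thick return succeeds, the hull of `Σ_out(z,t)` is `Z`, mesh of the window -/
def pvjtMf (m : ℕ) (z : ℂ) (t : τ) (Z : Set (ℤ × ℤ)) : Set (Conf PvPt) :=
  (pvjtLf 𝔓 𝔈 𝔯 m z t).A 𝔓.num (𝔓.col t) ∩ {η | pvilZo 𝔓 m z t η = Z} ∩ pvilMs 𝔓 m (pvjtWnf 𝔓 𝔈 𝔯 m z t Z)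

/-- SOFT success of the thick return at the hull `Z` -/
def pvjtAf (m : ℕ) (ε : ℝ) (z : ℂ) (t : τ) (Z : Set (ℤ × ℤ)) : Set (Conf PvPt) := pvilFin Z (pvilSure ε (pvjtWnf 𝔓 𝔈 𝔯 m z t Z) (pvjtMf 𝔓 𝔈 𝔯 m z t Z))

/-- **the thick return at the base data**, in the record of 218 (no value: only the event is used) -/
noncomputable def pvjtEf (m : ℕ) (ε : ℝ) (z : ℂ) (t : τ) (Z : Set (ℤ × ℤ)) (F : Set ℂ) : PvkyEnd where
  K := pvieSh z (𝔯.fK m t)
  y := fun _ => pvieSh z (𝔯.fM m t) \ F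
  A := pvjtAf 𝔓 𝔈 𝔯 m ε z t Z
  X := fun _ => 0

/-- the thick return at the base data OF THE CONFIGURATION `η₀` -/
noncomputable def pvjtEfAt (m : ℕ) (ε : ℝ) (z : ℂ) (t : τ) (η₀ : Conf PvPt) : PvkyEnd := pvjtEf 𝔓 𝔈 𝔯 m ε z t (pvilZo 𝔓 m z t η₀) (pvilFo 𝔓 m z t η₀)

/-- SOFT success of the thick link at the hull `Z`, weight `wt`      (`(pvilEe 𝔓 𝔈 m ε wt z t Z F).A` does not depend on `F`) -/
noncomputable def pvjtAe (m : ℕ) (ε : ℝ) (z : ℂ) (t : τ) (Z : Set (ℤ × ℤ)) : Set (Conf PvPt) := (pvilEe 𝔓 𝔈 m ε wt z t Z ∅).A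

/-- the level is a level of the engine, the type is not degenerate -/
def pvjtLv (m : ℕ) (t : τ) : Prop := 𝔓.m0 ≤ m ∧ pviwTyOk 𝔓 t

/-- **(G) of 290**: the cells of the exit hull miss the ball `5ρh/8` round the entrance mouth, the cells of the entrance hull the ball round the exit mouth -/
def pvjtGi (m : ℕ) (z : ℂ) (t : τ) (i : PvjtIx) : Prop :=
  Disjoint (pvtU (pvlmDel c m) i.2.1) (Metric.closedBall (z + (pvlmH m : ℂ) * (𝔓.ty t).ym) (5 * 𝔓.num.rho * pvlmH m / 8)) ∧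
  Disjoint (pvtU (pvlmDel c m) i.1.1) (Metric.closedBall (z + (pvlmH m : ℂ) * (𝔓.ty t).yp) (5 * 𝔓.num.rho * pvlmH m / 8))

open Classical in
/-- **THE BASE DATA OF A CONFIGURATION**, guarded by `pvjtLv` and by the full state -/
noncomputable def pvjtBeta (m : ℕ) (z : ℂ) (t : τ) (η : Conf PvPt) : Option PvjtIx :=
  if pvjtLv 𝔓 m t ∧ η ∈ pvilU 𝔓.num (𝔓.col t) (pvilPin 𝔓 m z t) then some ((pvilZi 𝔓 m z t η, pvilFi 𝔓 m z t η), (pvilZo 𝔓 m z t η, pvilFo 𝔓 m z t η)) else none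

/-- the resampled region: tile of the thick link, region of the reference plug, tile of the thick return -/
def pvjtC (m : ℕ) (z : ℂ) (t : τ) : Set ℂ := pvieSh z (𝔈.eK m t) ∪ pvieSh (pvieZu 𝔓 m z t) (𝔈.rO m) ∪ pvieSh z (𝔯.fK m t)

/-- the recoloured sites of the thick link -/
def pvjtYe (m : ℕ) (z : ℂ) (t : τ) (i : PvjtIx) : Set ℂ := pvieSh z (𝔈.eM m t) \ i.1.2

/-- the recoloured sites of the thick return -/
def pvjtYf (m : ℕ) (z : ℂ) (t : τ) (i : PvjtIx) : Set ℂ := pvieSh z (𝔯.fM m t) \ i.2.2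

/-- the recoloured sites of the experiment (nothing off the full state) -/
def pvjtY (m : ℕ) (z : ℂ) (t : τ) : Option PvjtIx → Set ℂ
  | none => ∅
  | some i => pvjtYe 𝔈 m z t i ∪ pvjtYf 𝔯 m z t i

/-- the experiment at the base data `i` -/
noncomputable def pvjtR (m : ℕ) (z : ℂ) (t : τ) (i : Option PvjtIx) : Conf PvPt → (ℂ → Bool) × Conf PvPt → Conf PvPt :=
  pvdyR (pvjtC 𝔓 𝔈 𝔯 m z t) (fun _ => pvjtY 𝔈 𝔯 m z t i)

/-- the reference plug of the candidate is usable -/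
def pvjtGu (m : ℕ) (ε : ℝ) (z : ℂ) (t : τ) : Set (Conf PvPt) := {η | pvkyFl (𝔓.col t) η ∈ cfMap (pvthInv (pvieZu 𝔓 m z t) 1) ⁻¹' 𝔈.rG m ε}

/-- **THE GOOD SET OF `thick`** = (K5) of 7: at the base data of `ω`, for a.e. seed with a usable reference plug, the thick link is forced with `q`, the thick return with `q'` -/
def pvjtGd (q q' : ℝ≥0∞) (m : ℕ) (ε : ℝ) (z : ℂ) (t : τ) : Set (Conf PvPt) :=
  {ω | pvjtLv 𝔓 m t ∧ ∀ i, pvjtBeta 𝔓 m z t ω = some i → ∀ᵐ p ∂pvdyNu ε, pvjtR 𝔓 𝔈 𝔯 m z t (some i) ω p ∈ pvjtGu 𝔓 𝔈 m ε z t →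
    q ≤ pvdyQ ε (pvieSh z (𝔈.eK m t)) (fun _ => pvjtYe 𝔈 m z t i) (pvjtAe 𝔓 𝔈 wt m ε z t i.1.1) (pvjtR 𝔓 𝔈 𝔯 m z t (some i) ω p) ∧
    q' ≤ pvdyQ ε (pvieSh z (𝔯.fK m t)) (fun _ => pvjtYf 𝔯 m z t i) (pvjtAf 𝔓 𝔈 𝔯 m ε z t i.2.1) (pvjtR 𝔓 𝔈 𝔯 m z t (some i) ω p)}

end defs

/-- **THE RETURN OF RECORD**: the fields `fM fK fY` of the engine + the mask -/
def pvjtRetE {τ : Type} (𝔈 : PvieEng τ) (Mk : ℕ → τ → Set ℂ) : PvjtRet τ := ⟨𝔈.fM, 𝔈.fK, 𝔈.fY, Mk⟩

theorem pvjt_eqns_cite : True := by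
  have := @pvjtLf.eq_1; have := @pvjtWnf.eq_1; have := @pvjtMf.eq_1; have := @pvjtAf.eq_1; have := @pvjtAe.eq_1; have := @pvjtLv.eq_1; have := @pvjtBeta.eq_1; have := @pvjtC.eq_1
  have := @pvjtYe.eq_1; have := @pvjtYf.eq_1; have := @pvjtY.eq_1; have := @pvjtR.eq_1; have := @pvjtGu.eq_1; have := @pvjtGd.eq_1; have := @pvjtEf.eq_1; have := @pvjtEfAt.eq_1; have := @pvjtGi.eq_1; have := @pvjtRetE.eq_1
  trivial

end Claimed.Agent.R289
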