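import Claimed.Agent.R289.PppQ
import Claimed.Agent.R289.S1.Meas

/-!
# Row 289 (S0537), Defs/Twin : THE TWO QUENCHED VOCABULARIES ARE THE SAME      (owner helper163, chief architect; prefix `pvtw_`)

`PppQ.lean` (261): `PvIx PvGeoT PvColT pvGeo pvCol pvMerge pvGeoOf pvColOf`.      `S1/Meas.lean` (268): `PvfIx PvfBase pvfBaseLaw colLaw PvfIx pvfGlue pvfBase pvfCol`.
The types are the same abbreviations; the laws and maps are equal BY `rfl`.      Rewrite with these lemmas (or use `show` / `exact`) at every seam: `PvTransport` (`Defs/Bulk`) is typed in the first, OBS (174) in the second.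
-/

set_option autoImplicit false

namespace Claimed.Agent.R289

open MeasureTheory Claims.C0465

theorem pvtw_ix : PvfIx = PvIx := rfl
theorem pvtw_base : PvfBase = PvGeoT := rfl
theorem pvtw_geo (ε : ℝ) : pvfBaseLaw ε = pvGeo ε := rfl
theorem pvtw_col : colLaw PvfIx = pvCol := rfl
theorem pvtw_col' : colLaw PvIx = pvCol := rfl
theorem pvtw_merge : pvfGlue = pvMerge := rfl
theorem pvtw_merge_apply (p : PvGeoT × PvColT) : pvfGlue p = pvMerge p := rfl
theorem pvtw_geoOf : pvfBase = pvGeoOf := rfl
theorem pvtw_colOf : pvfCol = pvColOf := rfl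

end Claimed.Agent.R289
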